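import Crest.Agent.R318.Defs

/-!
# Row 318: basic lemmas
-/

set_option autoImplicit false
set_option linter.unusedVariables false

namespace Crest.Agent.R318

open Crest.BinPacking

theorem mem_gk {N : ℕ} {S : List (List ℕ)} {R : ℕ} {v : ℕ × ℕ × ℕ} :
    v ∈ gk N S R ↔ v.1 ≤ S.length ∧ v.2.1 < N ∧ v.2.2 < R ∧ (v.1 = 0 → v.2.2 = 0) ∧
      (v.1 ≠ 0 → v.2.1 ∈ S.getD (v.1 - 1) []) := by
  obtain ⟨e, x, j⟩ := v
  simp only [gk, List.mem_filter, List.mem_flatMap, List.mem_range, List.mem_map, Prod.mk.injEq]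
  constructor
  · rintro ⟨⟨e', he, x', hx, j', hj, rfl, rfl, rfl⟩, h⟩
    refine ⟨by omega, hx, hj, fun h0 => ?_, fun h0 => ?_⟩
    · simpa [h0] using h
    · rw [if_neg h0] at h; exact of_decide_eq_true h
  · rintro ⟨h1, h2, h3, h4, h5⟩
    refine ⟨⟨e, by omega, x, h2, j, h3, rfl, rfl, rfl⟩, ?_⟩
    by_cases h0 : e = 0
    · rw [if_pos h0]; exact decide_eq_true (h4 h0)
    · rw [if_neg h0]; exact decide_eq_true (h5 h0)

theorem gk_nodup (N : ℕ) (S : List (List ℕ)) (R : ℕ) : (gk N S R).Nodup := by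
  refine List.Nodup.filter _ ?_
  have e : ((List.range (S.length + 1)).flatMap fun e => (List.range N).flatMap fun x =>
      (List.range R).map fun j => (e, x, j)) =
      (List.range (S.length + 1)) ×ˢ ((List.range N) ×ˢ (List.range R)) := by
    simp only [SProd.sprod, List.product, List.map_flatMap, List.map_map]
    rfl
  rw [e]
  exact List.nodup_range.product (List.nodup_range.product List.nodup_range)

theorem card_gk (N : ℕ) (S : List (List ℕ)) (R : ℕ) :
    Fintype.card {v // v ∈ gk N S R} ≤ (S.length + 1) * N * R := by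
  have : Fintype.card {v // v ∈ gk N S R} ≤
      Fintype.card (Fin (S.length + 1) × Fin N × Fin R) := by
    refine Fintype.card_le_of_injective (fun v => (⟨v.1.1, Nat.lt_succ_of_le (mem_gk.1 v.2).1⟩,
      ⟨v.1.2.1, (mem_gk.1 v.2).2.1⟩, ⟨v.1.2.2, (mem_gk.1 v.2).2.2.1⟩)) ?_
    rintro ⟨⟨a, b, c⟩, h⟩ ⟨⟨a', b', c'⟩, h'⟩ hh
    simp only [Prod.mk.injEq, Fin.mk.injEq] at hh
    obtain ⟨rfl, rfl, rfl⟩ := hh
    rfl
  simpa [mul_assoc] using this

section
variable {ι κ : Type}

theorem cnt_equiv [Fintype ι] [Fintype κ] (e : ι ≃ κ) (f : κ → ℚ) (p : ℚ) :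
    cnt (fun i => f (e i)) p = cnt f p := by
  unfold cnt
  refine Finset.card_equiv e fun i => ?_
  simp

theorem Rel.of_equiv [Fintype ι] [Fintype κ] (e : ι ≃ κ) {g : ι → T3} {h : κ → T3}
    (he : ∀ i, g i = h (e i)) {r E : ℕ} (H : Rel g r E) : Rel h r E := by
  obtain ⟨a, b, h1, h2, h3⟩ := H
  have hg : ∀ j, h j = g (e.symm j) := fun j => by rw [he, e.apply_symm_apply]
  refine ⟨fun j => a (e.symm j), fun j => b (e.symm j), fun j => ?_, fun p => ?_, fun q => ?_⟩
  · rw [hg]; exact h1 _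
  · simp only [hg]
    rw [cnt_equiv e.symm a, cnt_equiv e.symm (fun i => (g i).2.1)]
    exact h2 p
  · simp only [hg]
    rw [cnt_equiv e.symm b, cnt_equiv e.symm (fun i => (g i).2.2)]
    exact h3 q

theorem Sol.of_equiv (e : ι ≃ κ) {g : ι → T3} {h : κ → T3} (he : ∀ i, g i = h (e i)) {k : ℕ}
    (H : Sol k h) : Sol k g := by
  obtain ⟨eA, eB, H⟩ := H
  let E := e.prodCongr (Equiv.refl (Fin k))
  refine ⟨(E.trans eA).trans E.symm, (E.trans eB).trans E.symm, fun z => ?_⟩
  have := H (E z)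
  simpa [he, E] using this

theorem Rel.of_scale [Fintype ι] {g : ι → T3} {c : ℚ} (hc : 0 < c) {r E : ℕ}
    (H : Rel (fun i => scale c (g i)) r E) : Rel g r E := by
  obtain ⟨a, b, h1, h2, h3⟩ := H
  have c1 : ∀ (f : ι → ℚ) (p : ℚ), cnt (fun i => c * f i) (c * p) = cnt f p := fun f p => by
    unfold cnt
    congr 1
    ext i
    simp only [Finset.mem_filter, Finset.mem_univ, true_and]
    exact mul_le_mul_iff_right₀ hc
  have c2 : ∀ (f : ι → ℚ) (p : ℚ), cnt (fun i => f i / c) p = cnt f (c * p) := fun f p => by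
    unfold cnt
    congr 1
    ext i
    simp only [Finset.mem_filter, Finset.mem_univ, true_and]
    rw [le_div_iff₀ hc, mul_comm]
  refine ⟨fun i => a i / c, fun i => b i / c, fun i => ⟨div_nonneg (h1 i).1 hc.le, ?_⟩,
    fun p => ?_, fun q => ?_⟩
  · rw [← add_div, div_le_iff₀ hc, mul_comm]
    exact (h1 i).2
  · rw [c2, ← c1]; exact h2 _
  · rw [c2, ← c1]; exact h3 _

theorem Sol.scale {g : ι → T3} {c : ℚ} (hc : 0 ≤ c) {k : ℕ} (H : Sol k g) :
    Sol k fun i => scale c (g i) := by
  obtain ⟨eA, eB, H⟩ := H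
  refine ⟨eA, eB, fun z => ?_⟩
  have := mul_le_mul_of_nonneg_left (H z) hc
  rw [mul_add] at this
  exact this

/-- Hall's theorem for thresholds -/
theorem exists_perm_of_cnt [Fintype ι] (f g : ι → ℚ) (h : ∀ p, cnt f p ≤ cnt g p) :
    ∃ e : Equiv.Perm ι, ∀ z, f (e z) ≤ g z := by
  classical
  let t : ι → Finset ι := fun i => Finset.univ.filter fun z => f i ≤ g z
  obtain ⟨φ, hφ, hφt⟩ := (Finset.all_card_le_biUnion_card_iff_exists_injective t).1 (fun s => by
    rcases s.eq_empty_or_nonempty with rfl | hs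
    · simp
    obtain ⟨i, hi, hmin⟩ := s.exists_min_image f hs
    calc s.card ≤ cnt f (f i) := Finset.card_le_card fun j hj => by simpa using hmin j hj
      _ ≤ cnt g (f i) := h _
      _ ≤ _ := Finset.card_le_card (Finset.subset_biUnion_of_mem t hi))
  let e : Equiv.Perm ι := Equiv.ofBijective φ (Finite.injective_iff_bijective.1 hφ)
  refine ⟨e.symm, fun z => ?_⟩
  have := hφt (e.symm z)
  have h2 : φ (e.symm z) = z := e.apply_symm_apply z
  rw [h2] at this
  simpa [t] using this

/-- at a threshold of capacity one at most `r + 1` keys drop -/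
theorem drop_le [Fintype ι] {a cap al : ι → ℚ} (ha : ∀ i, a i ≤ cap i) {p : ℚ} {r : ℕ}
    (h : cnt al p + 1 ≤ cnt a p + (r + 1)) (Q : ι → Prop) (hQ : ∀ i j, Q i → Q j → i = j)
    (hc : ∀ i, ¬ Q i → p ≤ cap i → p ≤ al i) :
    (Finset.univ.filter fun i => p ≤ cap i ∧ a i < p).card ≤ r + 1 := by
  classical
  have h1 : (Finset.univ.filter fun i => p ≤ cap i).card ≤ cnt al p + 1 := by
    have hq : (Finset.univ.filter Q).card ≤ 1 :=
      Finset.card_le_one.2 fun i hi j hj => hQ i j (by simpa using hi) (by simpa using hj)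
    calc _ ≤ ((Finset.univ.filter fun i => p ≤ al i) ∪ Finset.univ.filter Q).card :=
          Finset.card_le_card fun i hi => by
            simp only [Finset.mem_filter, Finset.mem_univ, true_and, Finset.mem_union] at hi ⊢
            by_cases hi' : Q i
            · exact Or.inr hi'
            · exact Or.inl (hc i hi' hi)
      _ ≤ _ := (Finset.card_union_le _ _).trans (Nat.add_le_add_left hq _)
  have h2 : (Finset.univ.filter fun i => p ≤ cap i ∧ a i < p).card + cnt a p ≤
      (Finset.univ.filter fun i => p ≤ cap i).card := by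
    unfold cnt
    rw [← Finset.card_union_of_disjoint]
    · refine Finset.card_le_card fun i hi => ?_
      simp only [Finset.mem_filter, Finset.mem_univ, true_and, Finset.mem_union] at hi ⊢
      rcases hi with hi | hi
      · exact hi.1
      · exact hi.trans (ha i)
    · rw [Finset.disjoint_filter]
      intro i _ hi hi'
      exact absurd hi.2 (not_lt.2 hi')
  omega

theorem packs_equiv [Fintype ι] [Fintype κ] (e : ι ≃ κ) {a : ι → ℚ} {b : κ → ℚ}
    (he : ∀ i, a i = b (e i)) (n : ℕ) : PacksInto a n ↔ PacksInto b n := by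
  constructor
  · rintro ⟨g, hg⟩
    refine ⟨fun j => g (e.symm j), fun c => le_trans (le_of_eq ?_) (hg c)⟩
    exact (Finset.sum_equiv e (fun i => by simp) (fun i _ => he i)).symm
  · rintro ⟨g, hg⟩
    refine ⟨fun i => g (e i), fun c => le_trans (le_of_eq ?_) (hg c)⟩
    exact Finset.sum_equiv e (fun i => by simp) (fun i _ => he i)

end

end Crest.Agent.R318
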