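import Crest.Agent.R318.Geom

/-!
# Row 318: completeness of one level
-/

set_option autoImplicit false
set_option linter.unusedVariables false

namespace Crest.Agent.R318

open Crest.BinPacking

variable {θ lam : ℚ} {N s R k : ℕ} {S : List (List ℕ)}

/-- the A slot of a gadget key -/
def slotA (θ : ℚ) (N R : ℕ) (D : Finset (ℕ × Fin k)) (v : ℕ × ℕ × ℕ) (i : Fin k) : ℚ :=
  if v.1 = 0 then (if (v.2.1, i) ∈ D then ps θ N R v - 1 else ps θ N R v)
  else (if (v.2.1, i) ∈ D then ps θ N R v else ps θ N R v - sg θ N R v.1)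

/-- the B slot of a gadget key -/
def slotB (θ : ℚ) (N R : ℕ) (D : Finset (ℕ × Fin k)) (v : ℕ × ℕ × ℕ) (i : Fin k) : ℚ :=
  if (v.1 = 0 ↔ (v.2.1, i) ∈ D) then 3 * sg θ N R v.1 / 2 else sg θ N R v.1 / 2

theorem slot_le (D : Finset (ℕ × Fin k)) (v : ℕ × ℕ × ℕ) (i : Fin k) :
    slotA θ N R D v i + slotB θ N R D v i ≤ (keyT θ N s S R v).1 := by
  have h0 : v.1 = 0 → sg θ N R v.1 = 1 := fun h => by simp [sg, tj, h]
  simp only [slotA, slotB, keyT]
  by_cases h1 : v.1 = 0 <;> by_cases h2 : (v.2.1, i) ∈ D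
  · rw [if_pos h1, if_pos h2, if_pos (iff_of_true h1 h2), h0 h1]
    linarith
  · rw [if_pos h1, if_neg h2, if_neg fun h => h2 (h.1 h1)]
  · rw [if_neg h1, if_pos h2, if_neg fun h => h1 (h.2 h2)]
  · rw [if_neg h1, if_neg h2, if_pos (iff_of_false h1 h2)]
    linarith

theorem slotA_cnt (hc : Ctx θ lam R) (D : Finset (ℕ × Fin k)) (p : ℚ) :
    cnt (fun z : {v // v ∈ gk N S R} × Fin k => (keyT θ N s S R z.1.1).2.1) p ≤
      cnt (fun z : {v // v ∈ gk N S R} × Fin k => slotA θ N R D z.1.1 z.2) p := by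
  have hm : ∀ v : {v // v ∈ gk N S R}, (0, v.1.2.1, 0) ∈ gk N S R := fun v =>
    mem_gk.2 ⟨Nat.zero_le _, (mem_gk.1 v.2).2.1, hc.one_le, fun _ => rfl, fun h => absurd rfl h⟩
  have key : ∀ z : {v // v ∈ gk N S R} × Fin k, p ≤ (keyT θ N s S R z.1.1).2.1 →
      ¬ p ≤ slotA θ N R D z.1.1 z.2 → z.1.1.1 ≠ 0 ∧ (z.1.1.2.1, z.2) ∉ D ∧
        ps θ N R z.1.1 - sg θ N R z.1.1.1 < p ∧ p ≤ ps θ N R z.1.1 := by
    intro z h1 h2
    simp only [keyT, slotA] at h1 h2
    split_ifs at h1 h2 with a b c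
    · exact absurd h1 h2
    · exact absurd (by linarith) h2
    · exact absurd h1 h2
    · exact ⟨a, c, not_le.1 h2, h1⟩
  refine Finset.card_sdiff_le_card_sdiff_iff.1 (Finset.card_le_card_of_injOn
    (fun z => (⟨_, hm z.1⟩, z.2)) (fun z hz => ?_) fun z hz z' hz' e => ?_)
  · simp only [Finset.coe_sdiff, Finset.coe_filter, Finset.mem_univ, true_and, Set.mem_sdiff,
      Set.mem_ofPred_eq] at hz ⊢
    obtain ⟨a1, a2, a3, a4⟩ := key z hz.1 hz.2
    have a5 := (ps_bounds hc z.1.2).2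
    have a6 := ps_sub_sg (N := N) hc a1
    simp only [slotA, keyT, if_true, if_neg a2, ps]
    simp only [ps] at a3 a4 a5 a6
    exact ⟨by linarith, not_le.2 (by linarith)⟩
  · simp only [Finset.coe_sdiff, Finset.coe_filter, Finset.mem_univ, true_and, Set.mem_sdiff,
      Set.mem_ofPred_eq] at hz hz'
    obtain ⟨a1, -, a3, a4⟩ := key z hz.1 hz.2
    obtain ⟨b1, -, b3, b4⟩ := key z' hz'.1 hz'.2
    simp only [Prod.mk.injEq, Subtype.mk.injEq, true_and, and_true] at e
    refine Prod.ext (Subtype.ext ?_) e.2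
    by_contra hne
    rcases sep' hc z.1.2 z'.1.2 a1 b1 e.1 hne with h | h <;> linarith

theorem Compl_two {ι : Type} (F : Finset ι) {f g : ι → ℚ} {lo hi : ℚ} (h : lo ≤ hi)
    (P Q : ι → Prop) [DecidablePred P] [DecidablePred Q]
    (hf : ∀ z ∈ F, f z = if P z then hi else lo) (hg : ∀ z ∈ F, g z = if Q z then hi else lo)
    (hPQ : (F.filter P).card ≤ (F.filter Q).card) (q : ℚ) :
    (F.filter fun z => q ≤ f z).card ≤ (F.filter fun z => q ≤ g z).card := by
  by_cases h1 : q ≤ lo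
  · refine Finset.card_le_card fun z hz => ?_
    have hz' := (Finset.mem_filter.1 hz).1
    refine Finset.mem_filter.2 ⟨hz', ?_⟩
    rw [hg z hz']
    split_ifs
    exacts [h1.trans h, h1]
  by_cases h2 : q ≤ hi
  · refine le_trans (Finset.card_le_card fun z hz => ?_)
      (hPQ.trans (Finset.card_le_card fun z hz => ?_)) <;>
      obtain ⟨a1, a2⟩ := Finset.mem_filter.1 hz <;> refine Finset.mem_filter.2 ⟨a1, ?_⟩
    · by_contra a3
      rw [hf z a1, if_neg a3] at a2
      exact h1 a2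
    · rwa [hg z a1, if_pos a2]
  · rw [Finset.filter_false_of_mem, Finset.card_empty]
    · exact Nat.zero_le _
    · intro z hz
      rw [hf z hz]
      split_ifs
      exacts [h2, h1]

theorem slotB_cnt (hc : Ctx θ lam R) (hw : WF N s S) (D : Finset (ℕ × Fin k))
    (hD : ∀ z ∈ D, z.1 < N) (hs : k * s ≤ D.card)
    (hS : ∀ l ∈ S, k ≤ ((l.toFinset ×ˢ (Finset.univ : Finset (Fin k))) \ D).card) (q : ℚ) :
    cnt (fun z : {v // v ∈ gk N S R} × Fin k => (keyT θ N s S R z.1.1).2.2) q ≤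
      cnt (fun z : {v // v ∈ gk N S R} × Fin k => slotB θ N R D z.1.1 z.2) q := by
  have hf : ∀ F : Finset ({v // v ∈ gk N S R} × Fin k), F.card =
      ∑ e ∈ Finset.range (S.length + 1), (F.filter fun z => z.1.1.1 = e).card := fun F =>
    Finset.card_eq_sum_card_fiberwise fun z _ =>
      Finset.mem_coe.2 (Finset.mem_range.2 (Nat.lt_succ_of_le (mem_gk.1 z.1.2).1))
  unfold cnt
  rw [hf, hf]
  refine Finset.sum_le_sum fun e he => ?_
  have he' := Nat.le_of_lt_succ (Finset.mem_range.1 he)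
  have s0 : 0 < sg θ N R e := pow_pos hc.pos _
  rw [Finset.filter_comm, Finset.filter_comm (fun z => q ≤ _)]
  refine Compl_two _ (lo := sg θ N R e / 2) (hi := 3 * sg θ N R e / 2) (by linarith)
    (fun z => (if z.1.1.1 = 0 then decide (z.1.1.2.1 < s)
      else decide (z.1.1.2.1 = (S.getD (z.1.1.1 - 1) []).headD 0)) = true)
    (fun z => z.1.1.1 = 0 ↔ (z.1.1.2.1, z.2) ∈ D) (fun z hz => ?_) (fun z hz => ?_) ?_ q
  · rw [← (Finset.mem_filter.1 hz).2]
    rfl
  · rw [← (Finset.mem_filter.1 hz).2]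
    rfl
  rcases eq_or_ne e 0 with rfl | e0
  · refine le_trans (Finset.card_le_card_of_injOn (t := Finset.univ ×ˢ Finset.range s)
      (fun z => (z.2, z.1.1.2.1)) (fun z hz => ?_) fun z hz z' hz' h => ?_) (le_trans ?_
        (hs.trans (Finset.card_le_card_of_surjOn (fun z => (z.1.1.2.1, z.2)) fun y hy => ?_)))
    · simp only [Finset.coe_filter, Finset.mem_filter, Finset.mem_univ, true_and,
        Set.mem_ofPred_eq] at hz
      simpa [hz.1] using hz.2
    · simp only [Finset.coe_filter, Finset.mem_filter, Finset.mem_univ, true_and,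
        Set.mem_ofPred_eq] at hz hz'
      simp only [Prod.mk.injEq] at h
      exact Prod.ext (Subtype.ext (Prod.ext (hz.1.trans hz'.1.symm) (Prod.ext h.2
        (((mem_gk.1 z.1.2).2.2.2.1 hz.1).trans ((mem_gk.1 z'.1.2).2.2.2.1 hz'.1).symm)))) h.1
    · simp
    · refine ⟨(⟨(0, y.1, 0), mem_gk.2 ⟨Nat.zero_le _, hD y hy, hc.one_le, fun _ => rfl,
        fun h => absurd rfl h⟩⟩, y.2), ?_, rfl⟩
      simpa using hy
  · have hl : S.getD (e - 1) [] ∈ S := by
      rw [List.getD_eq_getElem _ _ (by omega : e - 1 < S.length)]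
      exact List.getElem_mem _
    refine le_trans (Finset.card_le_card_of_injOn (t := Finset.univ ×ˢ Finset.range R)
      (fun z => (z.2, z.1.1.2.2)) (fun z hz => ?_) fun z hz z' hz' h => ?_) (le_trans ?_
        (Finset.card_le_card_of_surjOn (t := (((S.getD (e - 1) []).toFinset ×ˢ
          (Finset.univ : Finset (Fin k))) \ D) ×ˢ Finset.range R)
          (fun z => ((z.1.1.2.1, z.2), z.1.1.2.2)) fun y hy => ?_))
    · simpa using (mem_gk.1 z.1.2).2.2.1
    · simp only [Finset.coe_filter, Finset.mem_filter, Finset.mem_univ, true_and,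
        Set.mem_ofPred_eq] at hz hz'
      simp only [Prod.mk.injEq] at h
      have a1 := hz.2
      have a2 := hz'.2
      rw [hz.1, if_neg e0, decide_eq_true_eq] at a1
      rw [hz'.1, if_neg e0, decide_eq_true_eq] at a2
      exact Prod.ext (Subtype.ext (Prod.ext (hz.1.trans hz'.1.symm)
        (Prod.ext (a1.trans a2.symm) h.2))) h.1
    · rw [Finset.card_product, Finset.card_product, Finset.card_fin]
      exact Nat.mul_le_mul_right _ (hS _ hl)
    · simp only [Finset.coe_product, Finset.coe_sdiff, Set.mem_prod, Set.mem_sdiff, Finset.mem_coe,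
        List.mem_toFinset, Finset.mem_range] at hy
      refine ⟨(⟨(e, y.1.1, y.2), mem_gk.2 ⟨he', (hw.2 _ hl).2 _ hy.1.1.1, hy.2,
        fun h => absurd h e0, fun _ => hy.1.1.1⟩⟩, y.1.2), ?_, rfl⟩
      simpa [e0] using hy.1.2

theorem gadget_sol (hc : Ctx θ lam R) (hw : WF N s S) (h : KSol k N s S) :
    Sol k fun v : {v // v ∈ gk N S R} => keyT θ N s S R v.1 := by
  obtain ⟨D, hD, hs, hS⟩ := h
  obtain ⟨eA, hA⟩ := exists_perm_of_cnt _ _ (slotA_cnt (N := N) (s := s) (S := S) hc D)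
  obtain ⟨eB, hB⟩ := exists_perm_of_cnt _ _ (slotB_cnt hc hw D hD hs hS)
  exact ⟨eA, eB, fun z => (add_le_add (hA z) (hB z)).trans (slot_le D _ _)⟩

theorem step_sol (hc : Ctx θ lam R) (hw : WF N s S) (h : KSol k N s S) {κ : Type} {g : κ → T3}
    (hg : Sol k g) : Sol k (stepF θ N s S R g) := by
  obtain ⟨a, b, hab⟩ := gadget_sol hc hw h
  obtain ⟨a', b', hab'⟩ := hg
  let E : Ix N S R κ × Fin k ≃
      ({v // v ∈ gk N S R} × Fin k) ⊕ ({v // v ∈ gk N S R} × (κ × Fin k)) :=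
    { toFun := fun z => z.1.2.elim (Sum.inl (z.1.1, z.2)) fun w => Sum.inr (z.1.1, w, z.2)
      invFun := Sum.elim (fun y => ((y.1, none), y.2)) fun y => ((y.1, some y.2.1), y.2.2)
      left_inv := by rintro ⟨⟨v, _ | w⟩, i⟩ <;> rfl
      right_inv := by rintro (y | y) <;> rfl }
  refine ⟨E.trans ((a.sumCongr ((Equiv.refl _).prodCongr a')).trans E.symm),
    E.trans ((b.sumCongr ((Equiv.refl _).prodCongr b')).trans E.symm), ?_⟩
  rintro ⟨⟨v, _ | w⟩, i⟩
  · exact hab (v, i)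
  · have := mul_le_mul_of_nonneg_left (hab' (w, i)) (pow_pos hc.pos (tk N R v.1)).le
    change ps θ N R v.1 - kp θ N R v.1 + kp θ N R v.1 * (g (a' (w, i)).1).2.1 +
      kp θ N R v.1 * (g (b' (w, i)).1).2.2 ≤ ps θ N R v.1 - kp θ N R v.1 + kp θ N R v.1 * (g w).1
    unfold kp
    linarith

end Crest.Agent.R318
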