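import Crest.Agent.R318.Defs

/-!
# Row 318: disjoint copies of a hitting set instance
-/

set_option autoImplicit false
set_option linter.unusedVariables false

namespace Crest.Agent.R318

open Crest.BinPacking

variable {N s k : ℕ} {S : List (List ℕ)}

theorem HS_uniq {N x x' i i' : ℕ} (hx : x < N) (hx' : x' < N) (h : x + i * N = x' + i' * N) :
    x = x' ∧ i = i' := by
  have h1 : x = x' := by
    have := congrArg (· % N) h
    simpa only [Nat.add_mul_mod_self_right, Nat.mod_eq_of_lt hx, Nat.mod_eq_of_lt hx'] using this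
  subst h1
  exact ⟨rfl, Nat.eq_of_mul_eq_mul_right (by omega) (Nat.add_left_cancel h)⟩

theorem HS_lt {N x i ρ : ℕ} (hx : x < N) (hi : i < ρ) : x + i * N < ρ * N := by
  have := Nat.mul_le_mul_right N (show i + 1 ≤ ρ from hi)
  rw [Nat.add_mul, one_mul] at this
  omega

theorem HS_mem_rep {ρ : ℕ} {l' : List ℕ} :
    l' ∈ rep ρ N S ↔ ∃ i < ρ, ∃ l ∈ S, l.map (fun x => x + i * N) = l' := by
  simp only [rep, List.mem_flatMap, List.mem_range, List.mem_map]

theorem HS_mem_toHS {nv D : ℕ} {C : List (List (ℕ × ℕ))} {l : List ℕ} :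
    l ∈ toHS nv D C ↔ (∃ v < nv, ((List.range D).map fun d => v * D + d) = l) ∨
      ∃ c ∈ C, (c.map fun p => p.1 * D + p.2) = l := by
  simp only [toHS, List.mem_append, List.mem_map, List.mem_range]

theorem rep_wf (hw : WF N s S) (ρ : ℕ) : WF (ρ * N) (ρ * s) (rep ρ N S) := by
  refine ⟨Nat.mul_le_mul_left ρ hw.1, fun l' hl' => ?_⟩
  obtain ⟨i, hi, l, hl, rfl⟩ := HS_mem_rep.1 hl'
  refine ⟨by simpa using (hw.2 l hl).1, fun y hy => ?_⟩
  obtain ⟨x, hx, rfl⟩ := List.mem_map.1 hy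
  exact HS_lt ((hw.2 l hl).2 x hx) hi

theorem rep_ksol (hw : WF N s S) (h : KSol k N s S) (ρ : ℕ) :
    KSol k (ρ * N) (ρ * s) (rep ρ N S) := by
  obtain ⟨D, h1, h2, h3⟩ := h
  refine ⟨(Finset.range ρ ×ˢ D).image fun q => (q.2.1 + q.1 * N, q.2.2), fun z hz => ?_, ?_,
    fun l' hl' => ?_⟩
  · obtain ⟨q, hq, rfl⟩ := Finset.mem_image.1 hz
    obtain ⟨hq1, hq2⟩ := Finset.mem_product.1 hq
    exact HS_lt (h1 _ hq2) (Finset.mem_range.1 hq1)
  · rw [Finset.card_image_of_injOn, Finset.card_product, Finset.card_range, Nat.mul_left_comm]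
    · exact Nat.mul_le_mul_left ρ h2
    · intro q hq q' hq' e
      obtain ⟨e1, e2⟩ := Prod.mk.inj e
      have := HS_uniq (h1 _ (Finset.mem_product.1 hq).2) (h1 _ (Finset.mem_product.1 hq').2) e1
      exact Prod.ext this.2 (Prod.ext this.1 e2)
  · obtain ⟨i, hi, l, hl, rfl⟩ := HS_mem_rep.1 hl'
    refine (h3 l hl).trans (Finset.card_le_card_of_injOn (fun z => (z.1 + i * N, z.2)) ?_ ?_)
    · intro z hz
      obtain ⟨hz1, hz2⟩ := Finset.mem_sdiff.1 hz
      have hz3 : z.1 ∈ l := List.mem_toFinset.1 (Finset.mem_product.1 hz1).1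
      refine Finset.mem_sdiff.2 ⟨Finset.mem_product.2 ⟨List.mem_toFinset.2
        (List.mem_map.2 ⟨z.1, hz3, rfl⟩), Finset.mem_univ _⟩, fun hc => hz2 ?_⟩
      obtain ⟨q, hq, e⟩ := Finset.mem_image.1 hc
      obtain ⟨e1, e2⟩ := Prod.mk.inj e
      have hq2 := (Finset.mem_product.1 hq).2
      have := HS_uniq (h1 _ hq2) ((hw.2 l hl).2 _ hz3) e1
      rwa [← Prod.ext this.1 e2]
    · intro z _ z' _ e
      obtain ⟨e1, e2⟩ := Prod.mk.inj e
      exact Prod.ext (Nat.add_right_cancel e1) e2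

theorem rep_gap (hw : WF N s S) (h : Gap N s S 1) (ρ : ℕ) :
    Gap (ρ * N) (ρ * s) (rep ρ N S) ρ := by
  intro I hI hS
  have h1 : I ⊆ (Finset.range ρ).biUnion fun i =>
      ((Finset.range N).filter fun x => x + i * N ∈ I).image fun x => x + i * N := by
    intro y hy
    have hy' := hI y hy
    have hN : 0 < N := Nat.pos_of_ne_zero fun h0 => by simp [h0] at hy'
    have e : y % N + y / N * N = y := Nat.mod_add_div' y N
    refine Finset.mem_biUnion.2 ⟨y / N, Finset.mem_range.2 (Nat.div_lt_of_lt_mul (by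
      rwa [Nat.mul_comm])), Finset.mem_image.2 ⟨y % N, Finset.mem_filter.2
        ⟨Finset.mem_range.2 (Nat.mod_lt _ hN), by rwa [e]⟩, e⟩⟩
  have h2 : ∀ i ∈ Finset.range ρ, (((Finset.range N).filter fun x => x + i * N ∈ I).image
      fun x => x + i * N).card + 1 ≤ s := fun i hi => by
    refine le_trans (Nat.add_le_add_right Finset.card_image_le 1) (h _ (fun x hx => ?_) fun l hl => ?_)
    · exact Finset.mem_range.1 (Finset.mem_filter.1 hx).1
    · obtain ⟨y, hy, hy'⟩ := hS _ (HS_mem_rep.2 ⟨i, Finset.mem_range.1 hi, l, hl, rfl⟩)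
      obtain ⟨x, hx, rfl⟩ := List.mem_map.1 hy
      exact ⟨x, hx, fun hc => hy' (Finset.mem_filter.1 hc).2⟩
  have h3 := Finset.sum_le_card_nsmul _ _ _ h2
  rw [Finset.sum_add_distrib, Finset.sum_const, Finset.card_range, smul_eq_mul, smul_eq_mul,
    mul_one] at h3
  have h4 := (Finset.card_le_card h1).trans Finset.card_biUnion_le
  omega

/-- the complete graph on four vertices -/
def k4 : List (List ℕ) := [[0, 1], [0, 2], [0, 3], [1, 2], [1, 3], [2, 3]]

theorem k4_spec : WF 4 2 k4 ∧ KSol 2 4 2 k4 ∧ Gap 4 2 k4 1 := by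
  refine ⟨⟨by norm_num, by decide⟩, ⟨Finset.range 4 ×ˢ {0}, by decide, by decide, by decide⟩,
    fun I hI hS => ?_⟩
  have key : ∀ I ∈ (Finset.range 4).powerset, (∀ l ∈ k4, ∃ x ∈ l, x ∉ I) → I.card + 1 ≤ 2 := by
    decide
  exact key I (Finset.mem_powerset.2 fun x hx => Finset.mem_range.2 (hI x hx)) hS

theorem toHS_wf {nv D : ℕ} {C : List (List (ℕ × ℕ))} (h : CWF nv D C) :
    WF (nv * D) (nv * (D - 1)) (toHS nv D C) := by
  refine ⟨Nat.mul_le_mul_left nv (Nat.sub_le D 1), fun l hl => ?_⟩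
  rcases HS_mem_toHS.1 hl with ⟨v, hv, rfl⟩ | ⟨c, hc, rfl⟩
  · refine ⟨by have := h.1; simp; omega, fun y hy => ?_⟩
    obtain ⟨d, hd, rfl⟩ := List.mem_map.1 hy
    rw [Nat.add_comm]
    exact HS_lt (List.mem_range.1 hd) hv
  · refine ⟨by simpa using (h.2 c hc).1, fun y hy => ?_⟩
    obtain ⟨q, hq, rfl⟩ := List.mem_map.1 hy
    rw [Nat.add_comm]
    exact HS_lt ((h.2 c hc).2 q hq).2 ((h.2 c hc).2 q hq).1

theorem toHS_yes {nv D : ℕ} {C : List (List (ℕ × ℕ))} (h : CWF nv D C) (hs : CSat nv D C) :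
    KSol 1 (nv * D) (nv * (D - 1)) (toHS nv D C) := by
  obtain ⟨σ, h1, h2⟩ := hs
  refine ⟨(Finset.range (nv * D) \ (Finset.range nv).image fun v => v * D + σ v) ×ˢ Finset.univ,
    fun z hz => Finset.mem_range.1 (Finset.mem_sdiff.1 (Finset.mem_product.1 hz).1).1, ?_,
    fun l hl => ?_⟩
  · have a1 := Finset.le_card_sdiff ((Finset.range nv).image fun v => v * D + σ v)
      (Finset.range (nv * D))
    have a2 : ((Finset.range nv).image fun v => v * D + σ v).card ≤ nv :=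
      Finset.card_image_le.trans (Finset.card_range nv).le
    rw [Finset.card_product, Finset.card_univ, Fintype.card_fin, mul_one, one_mul, Nat.mul_sub_one]
    rw [Finset.card_range] at a1
    omega
  · have key : ∃ v < nv, v * D + σ v ∈ l := by
      rcases HS_mem_toHS.1 hl with ⟨v, hv, rfl⟩ | ⟨c, hc, rfl⟩
      · exact ⟨v, hv, List.mem_map.2 ⟨σ v, List.mem_range.2 (h1 v hv), rfl⟩⟩
      · obtain ⟨q, hq, e⟩ := h2 c hc
        exact ⟨q.1, ((h.2 c hc).2 q hq).1, List.mem_map.2 ⟨q, hq, by rw [e]⟩⟩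
    obtain ⟨v, hv, hl'⟩ := key
    refine Finset.card_pos.2 ⟨(v * D + σ v, 0), Finset.mem_sdiff.2 ⟨Finset.mem_product.2
      ⟨List.mem_toFinset.2 hl', Finset.mem_univ _⟩, fun hc => ?_⟩⟩
    exact (Finset.mem_sdiff.1 (Finset.mem_product.1 hc).1).2
      (Finset.mem_image.2 ⟨v, Finset.mem_range.2 hv, rfl⟩)

theorem toHS_no {nv D : ℕ} {C : List (List (ℕ × ℕ))} (h : CWF nv D C) (hs : ¬ CSat nv D C) :
    Gap (nv * D) (nv * (D - 1)) (toHS nv D C) 1 := by
  intro I hI hS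
  by_contra hcon
  have h1 : ∀ v, ∃ d, v < nv → d < D ∧ v * D + d ∉ I := fun v => by
    by_cases hv : v < nv
    · obtain ⟨y, hy, hy'⟩ := hS _ (HS_mem_toHS.2 (Or.inl ⟨v, hv, rfl⟩))
      obtain ⟨d, hd, rfl⟩ := List.mem_map.1 hy
      exact ⟨d, fun _ => ⟨List.mem_range.1 hd, hy'⟩⟩
    · exact ⟨0, fun h => absurd h hv⟩
  choose σ hσ using h1
  have hsub : ((Finset.range nv).image fun v => v * D + σ v) ⊆ Finset.range (nv * D) \ I := by
    intro y hy
    obtain ⟨v, hv, rfl⟩ := Finset.mem_image.1 hy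
    have hv' := Finset.mem_range.1 hv
    refine Finset.mem_sdiff.2 ⟨Finset.mem_range.2 ?_, (hσ v hv').2⟩
    rw [Nat.add_comm]
    exact HS_lt (hσ v hv').1 hv'
  have hcard : ((Finset.range nv).image fun v => v * D + σ v).card = nv := by
    rw [Finset.card_image_of_injOn, Finset.card_range]
    intro v hv v' hv' e
    have e' : σ v + v * D = σ v' + v' * D := by
      have : v * D + σ v = v' * D + σ v' := e
      omega
    exact (HS_uniq (hσ v (Finset.mem_range.1 hv)).1 (hσ v' (Finset.mem_range.1 hv')).1 e').2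
  have hI' : I ⊆ Finset.range (nv * D) := fun x hx => Finset.mem_range.2 (hI x hx)
  have heq := Finset.eq_of_subset_of_card_le hsub (by
    rw [hcard, Finset.card_sdiff_of_subset hI', Finset.card_range]
    rw [Nat.mul_sub_one] at hcon
    omega)
  refine hs ⟨σ, fun v hv => (hσ v hv).1, fun c hc => ?_⟩
  obtain ⟨y, hy, hy'⟩ := hS _ (HS_mem_toHS.2 (Or.inr ⟨c, hc, rfl⟩))
  obtain ⟨q, hq, rfl⟩ := List.mem_map.1 hy
  have hq' := (h.2 c hc).2 q hq
  have hm : q.1 * D + q.2 ∈ Finset.range (nv * D) \ I := by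
    refine Finset.mem_sdiff.2 ⟨Finset.mem_range.2 ?_, hy'⟩
    rw [Nat.add_comm]
    exact HS_lt hq'.2 hq'.1
  rw [← heq] at hm
  obtain ⟨v, hv, e⟩ := Finset.mem_image.1 hm
  have e' : σ v + v * D = q.2 + q.1 * D := by omega
  have := HS_uniq (hσ v (Finset.mem_range.1 hv)).1 hq'.2 e'
  exact ⟨q, hq, by rw [← this.2, this.1]⟩

end Crest.Agent.R318
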