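import Crest.Agent.R318.Basic

/-!
# Row 318: lists and families
-/

set_option autoImplicit false
set_option linter.unusedVariables false

namespace Crest.Agent.R318

open Crest.BinPacking

theorem lists_equiv_of_map {ι α : Type} (l : List ι) (nd : l.Nodup) (hall : ∀ x, x ∈ l)
    (h : ι → α) (L : List α) (hL : L = l.map h) :
    ∃ e : Fin L.length ≃ ι, ∀ i, L.get i = h (e i) := by
  classical
  subst hL
  refine ⟨(finCongr (List.length_map h)).trans (List.Nodup.getEquivOfForallMemList l nd hall), ?_⟩
  intro i
  simp [List.Nodup.getEquivOfForallMemList]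

theorem lists_map_finRange {α β : Type} (L : List α) (f : α → β) :
    L.map f = (List.finRange L.length).map fun i => f (L.get i) := by
  conv_lhs => rw [← List.map_get_finRange L]
  rw [List.map_map]
  rfl

theorem stepL_equiv (θ : ℚ) (N s : ℕ) (S : List (List ℕ)) (R : ℕ) (L : List T3) :
    ∃ e : Fin (stepL θ N s S R L).length ≃ Ix N S R (Fin L.length),
      ∀ i, (stepL θ N s S R L).get i = stepF θ N s S R L.get (e i) := by
  refine lists_equiv_of_map ((gk N S R).attach.flatMap fun v =>
    ((v, none) : Ix N S R (Fin L.length)) :: (List.finRange L.length).map fun w => (v, some w))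
    ?_ ?_ _ _ ?_
  · rw [List.nodup_flatMap]
    refine ⟨?_, ?_⟩
    · intro v _
      rw [List.nodup_cons]
      refine ⟨by simp, ?_⟩
      refine (List.nodup_finRange _).map ?_
      intro a b hab
      simpa using hab
    · have h := List.nodup_attach.2 (gk_nodup N S R)
      refine List.Pairwise.imp ?_ h
      intro a b hab
      simp only [Function.onFun]
      rw [List.disjoint_left]
      intro z hz hz'
      have h1 : z.1 = a := by
        simp only [List.mem_cons, List.mem_map] at hz
        rcases hz with rfl | ⟨w, -, rfl⟩ <;> rfl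
      have h2 : z.1 = b := by
        simp only [List.mem_cons, List.mem_map] at hz'
        rcases hz' with rfl | ⟨w, -, rfl⟩ <;> rfl
      exact hab (h1.symm.trans h2)
  · rintro ⟨v, w⟩
    rw [List.mem_flatMap]
    refine ⟨v, List.mem_attach _ _, ?_⟩
    cases w with
    | none => simp
    | some w => simp
  · rw [List.map_flatMap]
    unfold stepL
    conv_lhs => rw [← List.attach_map_subtype_val (gk N S R), List.flatMap_map]
    congr 1
    funext v
    rw [List.map_cons, List.map_map, lists_map_finRange L]
    rfl

theorem map_equiv (f : T3 → T3) (L : List T3) :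
    ∃ e : Fin (L.map f).length ≃ Fin L.length, ∀ i, (L.map f).get i = f (L.get (e i)) := by
  refine ⟨finCongr (List.length_map f), ?_⟩
  intro i
  simp

theorem sizes_equiv (L : List T3) :
    ∃ e : Fin (sizes L).length ≃ (Fin L.length ⊕ Fin L.length ⊕ Fin L.length),
      ∀ i, (sizes L).get i = sz3 L.get (e i) := by
  refine lists_equiv_of_map ((List.finRange L.length).map Sum.inl ++
    ((List.finRange L.length).map (fun i => Sum.inr (Sum.inl i)) ++
      (List.finRange L.length).map fun i => Sum.inr (Sum.inr i))) ?_ ?_ _ _ ?_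
  · rw [List.nodup_append, List.nodup_append]
    refine ⟨(List.nodup_finRange _).map Sum.inl_injective, ⟨(List.nodup_finRange _).map ?_,
      (List.nodup_finRange _).map ?_, ?_⟩, ?_⟩
    · intro a b hab
      simpa using hab
    · intro a b hab
      simpa using hab
    · intro a ha b hb
      simp only [List.mem_map] at ha hb
      obtain ⟨x, -, rfl⟩ := ha
      obtain ⟨y, -, rfl⟩ := hb
      simp
    · intro a ha b hb
      simp only [List.mem_map, List.mem_append] at ha hb
      obtain ⟨x, -, rfl⟩ := ha
      rcases hb with ⟨y, -, rfl⟩ | ⟨y, -, rfl⟩ <;> simp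
  · rintro (x | x | x) <;> simp
  · unfold sizes
    rw [List.map_append, List.map_append, List.map_map, List.map_map, List.map_map,
      lists_map_finRange L, lists_map_finRange L, lists_map_finRange L]
    rfl

theorem sz3_bounds {ι : Type} {g : ι → T3} {lam : ℚ} (hl : 0 ≤ lam) (hg : Nrm g lam)
    (i : ι ⊕ ι ⊕ ι) : 1 / 6 < sz3 g i ∧ sz3 g i ≤ 1 := by
  rcases i with i | i | i <;> obtain ⟨h1, h2, h3, h4, h5, h6⟩ := hg i <;>
    simp only [sz3, Sum.elim_inl, Sum.elim_inr] <;> constructor <;> linarith

theorem sizes_bounds {L : List T3} {lam : ℚ} (hl : 0 ≤ lam) (hg : Nrm L.get lam) :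
    ∀ a ∈ sizes L, 1 / 6 < a ∧ a ≤ 1 := by
  intro a ha
  obtain ⟨e, he⟩ := sizes_equiv L
  obtain ⟨i, rfl⟩ := List.get_of_mem ha
  rw [he]
  exact sz3_bounds hl hg _

end Crest.Agent.R318
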