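import Crest.Agent.R318.Sound
import Crest.Agent.R318.Compl
import Crest.Agent.R318.HS
import Crest.Agent.R318.Lists

/-!
# Row 318: the recursion
-/

set_option autoImplicit false
set_option linter.unusedVariables false

namespace Crest.Agent.R318

open Crest.BinPacking

variable {N s : ℕ} {S : List (List ℕ)}

theorem Build_ctx {lam : ℚ} (h0 : 0 < lam) (h1 : lam ≤ 1) {R : ℕ} (hR : 1 ≤ R) :
    Ctx (lam / (8 * ((R : ℚ) + 2))) lam R :=
  ⟨by positivity, le_of_eq (by field_simp), h1, hR⟩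

theorem Build_equiv (c θ : ℚ) (N s : ℕ) (S : List (List ℕ)) (R : ℕ) (L : List T3) :
    ∃ e : Fin ((stepL θ N s S R L).map (scale c)).length ≃ Ix N S R (Fin L.length),
      ∀ i, ((stepL θ N s S R L).map (scale c)).get i = scale c (stepF θ N s S R L.get (e i)) := by
  obtain ⟨e1, h1⟩ := map_equiv (scale c) (stepL θ N s S R L)
  obtain ⟨e2, h2⟩ := stepL_equiv θ N s S R L
  exact ⟨e1.trans e2, fun i => by rw [h1, h2]; rfl⟩

theorem Build_step_nrm {lam : ℚ} {L : List T3} (h0 : 0 < lam) (h1 : lam ≤ 1) (h2 : Nrm L.get lam)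
    (N s : ℕ) (S : List (List ℕ)) {R : ℕ} (hR : 1 ≤ R) :
    0 < lam * (lam / (8 * ((R : ℚ) + 2))) ^ tj N R (S.length + 1) / ((N : ℚ) + 2) ∧
    lam * (lam / (8 * ((R : ℚ) + 2))) ^ tj N R (S.length + 1) / ((N : ℚ) + 2) ≤ 1 ∧
    Nrm ((stepL (lam / (8 * ((R : ℚ) + 2))) N s S R L).map (scale (1 / ((N : ℚ) + 2)))).get
      (lam * (lam / (8 * ((R : ℚ) + 2))) ^ tj N R (S.length + 1) / ((N : ℚ) + 2)) := by
  have hc := Build_ctx h0 h1 hR
  refine ⟨by positivity, ?_, fun i => ?_⟩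
  · have a1 : (lam / (8 * ((R : ℚ) + 2))) ^ tj N R (S.length + 1) ≤ 1 :=
      pow_le_one₀ hc.pos.le (hc.theta_le.trans (by norm_num))
    have a2 : (0 : ℚ) ≤ N := Nat.cast_nonneg N
    rw [div_le_one (by positivity)]
    have := mul_le_mul h1 a1 (pow_nonneg hc.pos.le _) zero_le_one
    linarith
  · obtain ⟨e, he⟩ := Build_equiv (1 / ((N : ℚ) + 2)) (lam / (8 * ((R : ℚ) + 2))) N s S R L
    rw [he]
    exact step_nrm (s := s) hc h2 (e i)

theorem build_nrm (r N s : ℕ) (S : List (List ℕ)) (E : ℕ) :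
    0 < (build r N s S E).2 ∧ (build r N s S E).2 ≤ 1 ∧
      Nrm (build r N s S E).1.get (build r N s S E).2 := by
  induction r generalizing E with
  | zero => exact ⟨one_pos, le_rfl, fun i => i.elim0⟩
  | succ r ih =>
    obtain ⟨h0, h1, h2⟩ := ih (E + ((rep (E + r + 2) N S).length + 1) * ((E + r + 2) * N) *
      (E + (E + r + 2) * N * (r + 1) + 1) * (r + 2))
    exact Build_step_nrm h0 h1 h2 _ _ _ (Nat.succ_pos _)

theorem build_sound (hw : WF N s S) (h : Gap N s S 1) (r E : ℕ) :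
    ¬ Rel (build r N s S E).1.get r E := by
  induction r generalizing E with
  | zero =>
    rintro ⟨a, b, -, h2, -⟩
    have := h2 0
    have e : ∀ f : Fin (build 0 N s S E).1.length → ℚ, cnt f 0 = 0 := fun f =>
      Finset.card_eq_zero.2 (Finset.eq_empty_of_forall_notMem fun i _ => i.elim0)
    rw [e, e] at this
    omega
  | succ r ih =>
    obtain ⟨h0, h1, h2⟩ := build_nrm r N s S (E + ((rep (E + r + 2) N S).length + 1) *
      ((E + r + 2) * N) * (E + (E + r + 2) * N * (r + 1) + 1) * (r + 2))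
    intro H
    obtain ⟨e, he⟩ := Build_equiv (1 / ((((E + r + 2) * N : ℕ) : ℚ) + 2)) _ ((E + r + 2) * N)
      ((E + r + 2) * s) (rep (E + r + 2) N S) (E + (E + r + 2) * N * (r + 1) + 1) _
    exact step_sound (Build_ctx h0 h1 (Nat.succ_pos _)) h2 (rep_wf hw _) (rep_gap hw h _)
      (Nat.lt_succ_self _) (ih _) (Rel.of_scale (by positivity) (Rel.of_equiv e he H))

theorem build_sol {k : ℕ} (hw : WF N s S) (h : KSol k N s S) (r E : ℕ) :
    Sol k (build r N s S E).1.get := by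
  induction r generalizing E with
  | zero => exact ⟨1, 1, fun z => z.1.elim0⟩
  | succ r ih =>
    obtain ⟨h0, h1, h2⟩ := build_nrm r N s S (E + ((rep (E + r + 2) N S).length + 1) *
      ((E + r + 2) * N) * (E + (E + r + 2) * N * (r + 1) + 1) * (r + 2))
    obtain ⟨e, he⟩ := Build_equiv (1 / ((((E + r + 2) * N : ℕ) : ℚ) + 2)) _ ((E + r + 2) * N)
      ((E + r + 2) * s) (rep (E + r + 2) N S) (E + (E + r + 2) * N * (r + 1) + 1) _
    exact Sol.of_equiv e he (Sol.scale (by positivity)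
      (step_sol (Build_ctx h0 h1 (Nat.succ_pos _)) (rep_wf hw _) (rep_ksol hw h _) (ih _)))

end Crest.Agent.R318
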