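import Crest.Agent.R318.Geom

/-!
# Row 318: the nested copies
-/

set_option autoImplicit false
set_option linter.unusedVariables false

namespace Crest.Agent.R318

open Crest.BinPacking

variable {θ lam : ℚ} {N s R r E : ℕ} {S : List (List ℕ)} {κ : Type} [Fintype κ] {g : κ → T3}
  {a b : Ix N S R κ → ℚ}

omit [Fintype κ] in
theorem Child_isV {x : ℕ} (i j : Ix N S R κ) (hi : IsV x i) (hj : IsV x j) : i = j :=
  Prod.ext (Subtype.ext (hi.1.trans hj.1.symm)) (hi.2.trans hj.2.symm)

omit [Fintype κ] in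
theorem Child_not_ext {v : {v // v ∈ gk N S R}} {z : Ix N S R κ} (hz : ¬ Ext v.1 z) :
    ∃ w, z = (v, some w) := by
  obtain ⟨u, o⟩ := z
  rw [Ext, not_or, not_not] at hz
  obtain ⟨w, hw⟩ := Option.ne_none_iff_exists'.1 hz.2
  exact ⟨w, Prod.ext (Subtype.ext hz.1) hw⟩

theorem Child_split (v : {v // v ∈ gk N S R}) (P : Ix N S R κ → Prop) [DecidablePred P]
    [DecidablePred fun z => Ext v.1 z ∧ P z] :
    (Finset.univ.filter P).card = (Finset.univ.filter fun w => P (v, some w)).card +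
      (Finset.univ.filter fun z => Ext v.1 z ∧ P z).card := by
  classical
  rw [← Finset.card_filter_add_card_filter_not (s := Finset.univ.filter P) (Ext v.1), add_comm]
  congr 1
  · refine (Finset.card_bij (fun w _ => (v, some w)) (fun w hw => ?_) (fun w _ w' _ h => ?_)
      fun z hz => ?_).symm
    · simpa [Ext] using hw
    · simpa using h
    · simp only [Finset.mem_filter, Finset.mem_univ, true_and] at hz
      obtain ⟨w, rfl⟩ := Child_not_ext hz.2
      exact ⟨w, by simpa using hz.1, rfl⟩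
  · congr 1
    ext z
    simp [and_comm]

theorem Child_mono {ι : Type} [Fintype ι] {P Q : ι → Prop} [DecidablePred P] [DecidablePred Q]
    (h : ∀ i, P i → Q i) : (Finset.univ.filter P).card ≤ (Finset.univ.filter Q).card :=
  Finset.card_le_card fun i hi => by
    simp only [Finset.mem_filter, Finset.mem_univ, true_and] at hi ⊢
    exact h i hi

theorem drop_base (hc : Ctx θ lam R) (hg : Nrm g lam)
    (h1 : ∀ z, 0 ≤ b z ∧ a z + b z ≤ (stepF θ N s S R g z).1)
    (h2 : ∀ p, cnt (fun z => (stepF θ N s S R g z).2.1) p + 1 ≤ cnt a p + (r + 1)) (x : ℕ) :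
    (Finset.univ.filter fun z => (x : ℚ) + 1 ≤ (stepF θ N s S R g z).1 ∧ a z < (x : ℚ) + 1).card
      ≤ r + 1 := by
  exact drop_le (fun z => by linarith [(h1 z).1, (h1 z).2]) (h2 _) (IsV x) Child_isV
    fun z hz => cap_base hc hg x hz

theorem drop_child (hc : Ctx θ lam R) (hg : Nrm g lam)
    (h1 : ∀ z, 0 ≤ b z ∧ a z + b z ≤ (stepF θ N s S R g z).1)
    (h2 : ∀ p, cnt (fun z => (stepF θ N s S R g z).2.1) p + 1 ≤ cnt a p + (r + 1))
    {v : ℕ × ℕ × ℕ} (hv : v ∈ gk N S R) :
    (Finset.univ.filter fun z => ps θ N R v - kp θ N R v ≤ (stepF θ N s S R g z).1 ∧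
      a z < ps θ N R v - kp θ N R v).card ≤ r + 1 := by
  refine drop_le (fun z => by linarith [(h1 z).1, (h1 z).2]) (h2 _) (IsV v.2.1) Child_isV
    fun z hz h => ?_
  by_cases he : Ext v z
  · linarith [cap_child hc hg hv hz he h, kp_pos (N := N) hc v]
  · obtain ⟨w, rfl⟩ := Child_not_ext (v := ⟨v, hv⟩) he
    exact (child_bounds hc hg ⟨v, hv⟩ w).2.2.1

/-- few later indices hold a B item of the scale `θ ^ t` -/
theorem recruits (hc : Ctx θ lam R) (hg : Nrm g lam)
    (h1 : ∀ z, 0 ≤ b z ∧ a z + b z ≤ (stepF θ N s S R g z).1)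
    (h2 : ∀ p, cnt (fun z => (stepF θ N s S R g z).2.1) p + 1 ≤ cnt a p + (r + 1)) (t : ℕ) :
    (Finset.univ.filter fun z => t < tm z ∧ lam * θ ^ t ≤ b z).card
      ≤ (S.length + 1) * N * R * (r + 2) := by
  classical
  have hsub : (Finset.univ.filter fun z => t < tm z ∧ lam * θ ^ t ≤ b z) ⊆
      Finset.univ.biUnion fun v : {v // v ∈ gk N S R} => insert (v, none)
        (Finset.univ.filter fun z => ps θ N R v.1 - kp θ N R v.1 ≤ (stepF θ N s S R g z).1 ∧
          a z < ps θ N R v.1 - kp θ N R v.1) := by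
    rintro ⟨v, o⟩ hz
    simp only [Finset.mem_filter, Finset.mem_univ, true_and] at hz
    refine Finset.mem_biUnion.2 ⟨v, Finset.mem_univ _, ?_⟩
    rcases o with _ | w
    · exact Finset.mem_insert_self _ _
    · have h3 := child_bounds (s := s) hc hg v w
      have h4 := kp_later hc (show t < tk N R v.1 from hz.1)
      exact Finset.mem_insert_of_mem (Finset.mem_filter.2 ⟨Finset.mem_univ _, h3.1, by
        linarith [(h1 (v, some w)).2, h3.2.1, hz.2]⟩)
  refine (Finset.card_le_card hsub).trans ((Finset.card_biUnion_le_card_mul _ _ (r + 2)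
    fun v _ => (Finset.card_insert_le _ _).trans ?_).trans ?_)
  · exact Nat.succ_le_succ (drop_child hc hg h1 h2 v.2)
  · exact Nat.mul_le_mul_right _ (card_gk N S R)

/-- the B side of the copy below `v` -/
theorem child_B (hc : Ctx θ lam R) (hg : Nrm g lam)
    (h1 : ∀ z, 0 ≤ b z ∧ a z + b z ≤ (stepF θ N s S R g z).1)
    (h2 : ∀ p, cnt (fun z => (stepF θ N s S R g z).2.1) p + 1 ≤ cnt a p + (r + 1))
    (h3 : ∀ q, cnt (fun z => (stepF θ N s S R g z).2.2) q ≤ cnt b q + E)
    (v : {v // v ∈ gk N S R}) (q : ℚ) :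
    cnt (fun w => (g w).2.2) q ≤ cnt (fun w => b (v, some w) / kp θ N R v.1) q +
      (E + (S.length + 1) * N * R * (r + 2)) := by
  classical
  have hk := kp_pos (N := N) hc v.1
  rcases lt_or_ge 1 q with hq | hq
  · refine le_trans (le_of_eq ?_) (Nat.zero_le _)
    rw [cnt, Finset.card_eq_zero, Finset.filter_eq_empty_iff]
    exact fun w _ => not_le.2 ((hg w).2.2.2.2.2.trans_lt hq)
  have hq' : max q lam ≤ 1 := max_le hq hc.le_one
  have h4 := h3 (kp θ N R v.1 * max q lam)
  have h5 := recruits hc hg h1 h2 (tk N R v.1)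
  simp only [cnt] at h4 ⊢
  rw [Child_split v, Child_split v (fun z => _ ≤ b z)] at h4
  have h6 : (Finset.univ.filter fun w => q ≤ (g w).2.2).card ≤
      (Finset.univ.filter fun w => kp θ N R v.1 * max q lam ≤
        (stepF θ N s S R g (v, some w)).2.2).card :=
    Child_mono fun w hw => mul_le_mul_of_nonneg_left (max_le hw (hg w).2.2.2.2.1) hk.le
  have h7 : (Finset.univ.filter fun w => kp θ N R v.1 * max q lam ≤ b (v, some w)).card ≤
      (Finset.univ.filter fun w => q ≤ b (v, some w) / kp θ N R v.1).card :=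
    Child_mono fun w hw => by
      rw [le_div_iff₀' hk]
      exact (mul_le_mul_of_nonneg_left (le_max_left _ _) hk.le).trans hw
  have h8 : (Finset.univ.filter fun z : Ix N S R κ => tm z < tk N R v.1).card ≤
      (Finset.univ.filter fun z => Ext v.1 z ∧ kp θ N R v.1 * max q lam ≤
        (stepF θ N s S R g z).2.2).card :=
    Child_mono fun z hz => by
      refine ⟨by_contra fun h => ?_, ?_⟩
      · obtain ⟨w, rfl⟩ := Child_not_ext h
        exact lt_irrefl _ hz
      · have : 2 * kp θ N R v.1 ≤ _ := be_early (s := s) hc hg hz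
        nlinarith
  have h9 : (Finset.univ.filter fun z => Ext v.1 z ∧ kp θ N R v.1 * max q lam ≤ b z).card ≤
      (Finset.univ.filter fun z : Ix N S R κ => tm z < tk N R v.1).card +
      (Finset.univ.filter fun z => tk N R v.1 < tm z ∧ lam * θ ^ tk N R v.1 ≤ b z).card := by
    refine le_trans (Finset.card_le_card fun z hz => ?_) (Finset.card_union_le _ _)
    simp only [Finset.mem_filter, Finset.mem_univ, true_and, Finset.mem_union] at hz ⊢
    refine (tm_ne v.2 hz.1).lt_or_gt.imp id fun h => ⟨h, le_trans ?_ hz.2⟩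
    rw [mul_comm]
    exact mul_le_mul_of_nonneg_left (le_max_right _ _) hk.le
  omega

/-- the A side of the copy below `v`, if two outside keys drop across it -/
theorem child_A (hc : Ctx θ lam R) (hg : Nrm g lam)
    (h1 : ∀ z, 0 ≤ b z ∧ a z + b z ≤ (stepF θ N s S R g z).1)
    (h2 : ∀ p, cnt (fun z => (stepF θ N s S R g z).2.1) p + 1 ≤ cnt a p + (r + 1))
    (v : {v // v ∈ gk N S R}) {z w : Ix N S R κ} (hz : Ext v.1 z) (hw : Ext v.1 w) (hne : z ≠ w)
    (hz1 : ps θ N R v.1 - kp θ N R v.1 ≤ (stepF θ N s S R g z).1)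
    (hz2 : a z < ps θ N R v.1 - kp θ N R v.1)
    (hw1 : ps θ N R v.1 - kp θ N R v.1 ≤ (stepF θ N s S R g w).1)
    (hw2 : a w < ps θ N R v.1 - kp θ N R v.1) (p : ℚ) :
    cnt (fun w => (g w).2.1) p + 1 ≤
      cnt (fun w => (a (v, some w) - (ps θ N R v.1 - kp θ N R v.1)) / kp θ N R v.1) p + r := by
  classical
  have hk := kp_pos (N := N) hc v.1
  have ha : ∀ z, a z ≤ (stepF θ N s S R g z).1 := fun z => by linarith [(h1 z).1, (h1 z).2]
  obtain ⟨p', hp'⟩ : ∃ p', p' = max 0 (min p 1) := ⟨_, rfl⟩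
  have hp0 : 0 ≤ kp θ N R v.1 * p' := mul_nonneg hk.le (hp' ▸ le_max_left _ _)
  have hp1 : kp θ N R v.1 * p' ≤ kp θ N R v.1 :=
    mul_le_of_le_one_right hk.le (hp' ▸ max_le zero_le_one (min_le_right _ _))
  have h4 := h2 (ps θ N R v.1 - kp θ N R v.1 + kp θ N R v.1 * p')
  simp only [cnt] at h4 ⊢
  rw [Child_split v, Child_split v (fun z => _ ≤ a z)] at h4
  have h6 : (Finset.univ.filter fun w => p ≤ (g w).2.1).card ≤
      (Finset.univ.filter fun w => ps θ N R v.1 - kp θ N R v.1 + kp θ N R v.1 * p' ≤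
        (stepF θ N s S R g (v, some w)).2.1).card :=
    Child_mono fun w hw => add_le_add_right (mul_le_mul_of_nonneg_left
      (hp' ▸ max_le (hg w).2.2.1 ((min_le_left _ _).trans hw)) hk.le) _
  have h7 : (Finset.univ.filter fun w => ps θ N R v.1 - kp θ N R v.1 + kp θ N R v.1 * p' ≤
      a (v, some w)).card ≤ (Finset.univ.filter fun w =>
        p ≤ (a (v, some w) - (ps θ N R v.1 - kp θ N R v.1)) / kp θ N R v.1).card :=
    Child_mono fun w hw => by
      rw [le_div_iff₀' hk]
      rcases le_total p 1 with h | h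
      · have : p ≤ p' := by rw [hp', min_eq_left h]; exact le_max_right _ _
        linarith [mul_le_mul_of_nonneg_left this hk.le]
      · rw [hp', min_eq_right h, max_eq_right zero_le_one] at hw
        linarith [ha (v, some w), (child_bounds (s := s) hc hg v w).2.1]
  have h8 : (Finset.univ.filter fun y => Ext v.1 y ∧ ¬ IsV v.1.2.1 y ∧
      ps θ N R v.1 - kp θ N R v.1 ≤ (stepF θ N s S R g y).1).card ≤
      (Finset.univ.filter fun y => Ext v.1 y ∧ ps θ N R v.1 - kp θ N R v.1 + kp θ N R v.1 * p' ≤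
        (stepF θ N s S R g y).2.1).card :=
    Child_mono fun y hy => ⟨hy.1, by linarith [cap_child hc hg v.2 hy.2.1 hy.1 hy.2.2]⟩
  have h9 : (Finset.univ.filter fun y : Ix N S R κ => IsV v.1.2.1 y).card ≤ 1 :=
    Finset.card_le_one.2 fun i hi j hj =>
      Child_isV i j (Finset.mem_filter.1 hi).2 (Finset.mem_filter.1 hj).2
  have h10 : (insert z (insert w (Finset.univ.filter fun y => Ext v.1 y ∧
      ps θ N R v.1 - kp θ N R v.1 + kp θ N R v.1 * p' ≤ a y))).card ≤
      (Finset.univ.filter fun y => Ext v.1 y ∧ ¬ IsV v.1.2.1 y ∧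
        ps θ N R v.1 - kp θ N R v.1 ≤ (stepF θ N s S R g y).1).card +
      (Finset.univ.filter fun y : Ix N S R κ => IsV v.1.2.1 y).card := by
    refine le_trans (Finset.card_le_card fun y hy => ?_) (Finset.card_union_le _ _)
    simp only [Finset.mem_filter, Finset.mem_univ, true_and, Finset.mem_union,
      Finset.mem_insert] at hy ⊢
    refine (em' (IsV v.1.2.1 y)).imp (fun h => ?_) id
    rcases hy with rfl | rfl | hy
    · exact ⟨hz, h, hz1⟩
    · exact ⟨hw, h, hw1⟩
    · exact ⟨hy.1, h, by linarith [hy.2, ha y]⟩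
  rw [Finset.card_insert_of_notMem, Finset.card_insert_of_notMem] at h10
  · omega
  · simp only [Finset.mem_filter, Finset.mem_univ, true_and, not_and, not_le]
    exact fun _ => by linarith
  · simp only [Finset.mem_insert, Finset.mem_filter, Finset.mem_univ, true_and, not_or, not_and,
      not_le]
    exact ⟨hne, fun _ => by linarith⟩

/-- at most one outside key drops across a copy -/
theorem ext_unique (hc : Ctx θ lam R) (hg : Nrm g lam)
    (hno : ¬ Rel g r (E + (S.length + 1) * N * R * (r + 2)))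
    (h1 : ∀ z, 0 ≤ b z ∧ a z + b z ≤ (stepF θ N s S R g z).1)
    (h2 : ∀ p, cnt (fun z => (stepF θ N s S R g z).2.1) p + 1 ≤ cnt a p + (r + 1))
    (h3 : ∀ q, cnt (fun z => (stepF θ N s S R g z).2.2) q ≤ cnt b q + E)
    {v : ℕ × ℕ × ℕ} (hv : v ∈ gk N S R) {z w : Ix N S R κ} (hz : Ext v z) (hw : Ext v w)
    (hz1 : ps θ N R v - kp θ N R v ≤ (stepF θ N s S R g z).1) (hz2 : a z < ps θ N R v - kp θ N R v)
    (hw1 : ps θ N R v - kp θ N R v ≤ (stepF θ N s S R g w).1)
    (hw2 : a w < ps θ N R v - kp θ N R v) : z = w := by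
  have hk := kp_pos (N := N) hc v
  refine by_contra fun hne => hno ⟨_, _, fun u => ⟨div_nonneg (h1 _).1 hk.le, ?_⟩,
    child_A hc hg h1 h2 ⟨v, hv⟩ hz hw hne hz1 hz2 hw1 hw2, child_B hc hg h1 h2 h3 ⟨v, hv⟩⟩
  have h : _ ≤ ps θ N R v - kp θ N R v + kp θ N R v * (g u).1 := (h1 (⟨v, hv⟩, some u)).2
  rw [← add_div, div_le_iff₀' hk]
  linarith

end Crest.Agent.R318
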