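import Crest.Agent.R318.Tab
import Crest.Agent.R318.HS
import Crest.Agent.Lib.PolyTime.OfTM

/-!
# Row 318: Cook-Levin for hitting sets
-/

set_option autoImplicit false
set_option linter.unusedVariables false

namespace Crest.Agent.R318

open Crest.BinPacking

open Crest.Agent.R290 Crest.Agent.Lib.PolyTime

/-- each bit preceded by `true` -/
def cookMark (x : List Bool) : List Bool := (x.map fun b => [true, b]).flatten

theorem cook_parse (x w : List Bool) : pMarked pBool (cookMark x ++ false :: w) = (x, w) := by
  have h := pMarked_code (p := pBool) (c := fun b : Bool => [b]) (v := fun b => b) (l := x)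
    (fun _ _ _ => rfl) w
  rwa [List.map_id'] at h

theorem cook_length (x : List Bool) : (cookMark x).length = 2 * x.length := by
  induction x with
  | nil => rfl
  | cons b x ih =>
    have : cookMark (b :: x) = true :: b :: cookMark x := rfl
    rw [this, List.length_cons, List.length_cons, ih, List.length_cons]
    omega

theorem cook_poly : Poly cookMark := by
  unfold cookMark
  fun_prop

theorem exists_tbl_np {A : Set (List Bool)} (hA : Crest.Complexity.InNP A) :
    ∃ (M : Tbl) (u : List Bool → List Bool) (m T : List Bool → Un), M.WF ∧ Poly u ∧ Poly m ∧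
      Poly T ∧ ∀ x, x ∈ A ↔ ∃ w : List Bool, w.length = (m x).n ∧
        M.Halts (u x ++ w) (T x).n true := by
  obtain ⟨V, p, hV, hA⟩ := hA
  have hV' : Poly V := Poly.of_polyTimePred₂ hV
  let g : List Bool → Bool := fun z => V ((pMarked pBool z).1,
    (pMarked pBool (pMarked pBool z).2).1.take (p.eval (pMarked pBool z).1.length))
  have hg : Poly g := hV'.comp (by fun_prop)
  have hgx : ∀ x w, g (cookMark x ++ [false] ++ w) =
      V (x, (pMarked pBool w).1.take (p.eval x.length)) := fun x w => by
    simp only [g, List.append_assoc, List.singleton_append, cook_parse]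
  obtain ⟨q, hq⟩ := hg.exists_poly
  obtain ⟨M, D, hM, hH⟩ := exists_tbl_of_cmp hq
  have hc := cook_poly
  refine ⟨M, fun x => cookMark x ++ [false], fun x => ⟨2 * p.eval x.length + 1⟩,
    fun x => ⟨D * q.eval (4 * (2 * x.length + 1 + (2 * p.eval x.length + 1)) + 1) + D⟩, hM,
    by fun_prop, Poly.unMk (by fun_prop) (by fun_prop), Poly.unMk (by fun_prop) (by fun_prop),
    fun x => ?_⟩
  have key : ∀ w : List Bool, w.length = 2 * p.eval x.length + 1 →
      M.Halts (cookMark x ++ [false] ++ w)
        (D * q.eval (4 * (2 * x.length + 1 + (2 * p.eval x.length + 1)) + 1) + D)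
        (V (x, (pMarked pBool w).1.take (p.eval x.length))) := fun w hw => by
    rw [← hgx]
    refine Tbl.Halts.mono hM (hH _) (Nat.add_le_add_right (Nat.mul_le_mul_left _
      (eval_mono q ((sz_listBool_le _).trans ?_))) _)
    rw [List.length_append, List.length_append, cook_length, hw, List.length_singleton]
  rw [hA]
  constructor
  · rintro ⟨w, hw, hVw⟩
    have hl : (cookMark w ++ false ::
        List.replicate (2 * p.eval x.length - 2 * w.length) false).length =
        2 * p.eval x.length + 1 := by
      rw [List.length_append, cook_length, List.length_cons, List.length_replicate]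
      omega
    refine ⟨_, hl, ?_⟩
    have h := key _ hl
    rwa [cook_parse, List.take_of_length_le hw, hVw] at h
  · rintro ⟨w, hw, hH'⟩
    refine ⟨(pMarked pBool w).1.take (p.eval x.length), List.length_take_le _ _, ?_⟩
    have h := key w hw
    by_contra hne
    rw [Bool.not_eq_true] at hne
    rw [hne] at h
    have h1 := hH'.symm.trans h
    simp at h1

theorem cook {A : Set (List Bool)} (hA : Crest.Complexity.InNP A) :
    ∃ (N s : List Bool → ℕ) (S : List Bool → List (List ℕ)), Poly N ∧ PB N ∧ Poly s ∧ Poly S ∧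
      ∀ x, WF (N x) (s x) (S x) ∧ (x ∈ A → KSol 1 (N x) (s x) (S x)) ∧
        (x ∉ A → Gap (N x) (s x) (S x) 1) := by
  obtain ⟨M, u, m, T, hM, hu, hm, hT, hA⟩ := exists_tbl_np hA
  obtain ⟨nv, D, C, hnv, hnb, hC, h⟩ := exists_tableau M hM
  have hφ : Poly fun x => (u x, m x, T x) := by fun_prop
  have h1 : Poly fun x => nv (u x, m x, T x) := hnv.comp hφ
  have h2 : PB fun x => nv (u x, m x, T x) := hnb.comp hφ
  have h3 : Poly fun x => C (u x, m x, T x) := hC.comp hφ
  refine ⟨fun x => nv (u x, m x, T x) * D, fun x => nv (u x, m x, T x) * (D - 1),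
    fun x => toHS (nv (u x, m x, T x)) D (C (u x, m x, T x)), h1.mul (by fun_prop),
    h2.mul (PB.const _), h1.mul (Lib.PolyTime.Poly.const _), ?_, fun x => ?_⟩
  · unfold toHS
    refine Poly.append (Lib.PolyTime.Poly.map (Poly.range h1 h2) ?_) (Lib.PolyTime.Poly.map h3 ?_)
    · fun_prop
    · fun_prop
  · obtain ⟨hw, hs⟩ := h (u x) (m x).n (T x).n
    exact ⟨toHS_wf hw, fun hx => toHS_yes hw (hs.2 ((hA x).1 hx)),
      fun hx => toHS_no hw fun hc => hx ((hA x).2 (hs.1 hc))⟩

end Crest.Agent.R318
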