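import Mathlib
import Crest.Prelude.Def_BinPacking

/-!
# Row 318 (additive gap for bin packing): definitions

A bin holds one *key* (size `> 1/2`), one *A item* and one *B item*.  An instance is a finite family
of triples `(cap, α, β)`: key `i` has capacity `cap i`, and there is one A item of value `α i` and
one B item of value `β i` for each `i`.  A key can hold the items `a`, `b` iff `a + b ≤ cap`.

* `Sol k g`: a `k`-fold perfect solution (`k = 1`: packing, `k = 2`: half-integral LP solution).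
* `Rel g r E`: a relaxed solution with A-slack `r - 1` and B-slack `E` at every threshold.
* hitting set instances `(N, s, S)`: drop `s` of the `N` elements, every set keeps an element.
* `stepF`/`stepL`: the gadget of a hitting set instance, with a scaled copy of the previous level
  below every gadget key.  Keys are triples `(e, x, j)`: `(0, x, 0)` is the key of the element `x`,
  `(e+1, x, j)` (`j < R`) are the keys of the set number `e` under its element `x`.
-/

set_option autoImplicit false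

namespace Crest.Agent.R318

/-- capacity, A value, B value -/
abbrev T3 := ℚ × ℚ × ℚ

/-- the number of indices with value at least `p` -/
def cnt {ι : Type} [Fintype ι] (f : ι → ℚ) (p : ℚ) : ℕ :=
  (Finset.univ.filter fun i => p ≤ f i).card

/-- relaxed solution: A-slack `r - 1`, B-slack `E` -/
def Rel {ι : Type} [Fintype ι] (g : ι → T3) (r E : ℕ) : Prop :=
  ∃ a b : ι → ℚ, (∀ i, 0 ≤ b i ∧ a i + b i ≤ (g i).1) ∧
    (∀ p, cnt (fun i => (g i).2.1) p + 1 ≤ cnt a p + r) ∧
    ∀ q, cnt (fun i => (g i).2.2) q ≤ cnt b q + E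

/-- `k`-fold perfect solution -/
def Sol (k : ℕ) {ι : Type} (g : ι → T3) : Prop :=
  ∃ eA eB : Equiv.Perm (ι × Fin k), ∀ z, (g (eA z).1).2.1 + (g (eB z).1).2.2 ≤ (g z.1).1

/-- normalised instances -/
def Nrm {ι : Type} (g : ι → T3) (lam : ℚ) : Prop :=
  ∀ i, 0 ≤ (g i).1 ∧ (g i).1 < 1 ∧ 0 ≤ (g i).2.1 ∧ (g i).2.1 < 1 ∧ lam ≤ (g i).2.2 ∧ (g i).2.2 ≤ 1

/-- scaling -/
def scale (c : ℚ) (t : T3) : T3 := (c * t.1, c * t.2.1, c * t.2.2)

/-! ### Hitting sets -/

/-- well-formed hitting set instances -/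
def WF (N s : ℕ) (S : List (List ℕ)) : Prop := s ≤ N ∧ ∀ l ∈ S, l ≠ [] ∧ ∀ x ∈ l, x < N

/-- `k`-fold solution: `D` is the set of dropped (element, side) pairs -/
def KSol (k N s : ℕ) (S : List (List ℕ)) : Prop :=
  ∃ D : Finset (ℕ × Fin k), (∀ z ∈ D, z.1 < N) ∧ k * s ≤ D.card ∧
    ∀ l ∈ S, k ≤ ((l.toFinset ×ˢ (Finset.univ : Finset (Fin k))) \ D).card

/-- every admissible drop set has at most `s - d` elements -/
def Gap (N s : ℕ) (S : List (List ℕ)) (d : ℕ) : Prop :=
  ∀ I : Finset ℕ, (∀ x ∈ I, x < N) → (∀ l ∈ S, ∃ x ∈ l, x ∉ I) → I.card + d ≤ s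

/-- `ρ` disjoint copies of the set system -/
def rep (ρ N : ℕ) (S : List (List ℕ)) : List (List ℕ) :=
  (List.range ρ).flatMap fun i => S.map fun l => l.map fun x => x + i * N

/-! ### The gadget -/

/-- the gadget keys -/
def gk (N : ℕ) (S : List (List ℕ)) (R : ℕ) : List (ℕ × ℕ × ℕ) :=
  ((List.range (S.length + 1)).flatMap fun e => (List.range N).flatMap fun x =>
    (List.range R).map fun j => (e, x, j)).filter fun v =>
      if v.1 = 0 then decide (v.2.2 = 0) else decide (v.2.1 ∈ S.getD (v.1 - 1) [])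

/-- the time of the job `e` -/
def tj (N R e : ℕ) : ℕ := e * (N * R + 1)

/-- the time of the copy below the key `v` -/
def tk (N R : ℕ) (v : ℕ × ℕ × ℕ) : ℕ := v.1 * (N * R + 1) + 1 + v.2.1 * R + v.2.2

/-- the scale of the job `e` -/
def sg (θ : ℚ) (N R e : ℕ) : ℚ := θ ^ tj N R e

/-- the scale of the copy below the key `v` -/
def kp (θ : ℚ) (N R : ℕ) (v : ℕ × ℕ × ℕ) : ℚ := θ ^ tk N R v

/-- the position of the key `v` -/
def ps (θ : ℚ) (N R : ℕ) (v : ℕ × ℕ × ℕ) : ℚ :=
  if v.1 = 0 then v.2.1 + 5 / 4 else v.2.1 + 1 + (v.2.2 + 5 / 4) * sg θ N R v.1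

/-- the triple of the gadget key `v` -/
def keyT (θ : ℚ) (N s : ℕ) (S : List (List ℕ)) (R : ℕ) (v : ℕ × ℕ × ℕ) : T3 :=
  (ps θ N R v + sg θ N R v.1 / 2, if v.1 = 0 then ps θ N R v - 1 else ps θ N R v,
    if (if v.1 = 0 then decide (v.2.1 < s) else decide (v.2.1 = (S.getD (v.1 - 1) []).headD 0)) = true
    then 3 * sg θ N R v.1 / 2 else sg θ N R v.1 / 2)

/-- a triple of the copy below the key `v` -/
def place (θ : ℚ) (N R : ℕ) (v : ℕ × ℕ × ℕ) (t : T3) : T3 :=
  (ps θ N R v - kp θ N R v + kp θ N R v * t.1, ps θ N R v - kp θ N R v + kp θ N R v * t.2.1,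
    kp θ N R v * t.2.2)

/-- the index type of one level -/
abbrev Ix (N : ℕ) (S : List (List ℕ)) (R : ℕ) (κ : Type) : Type := {v // v ∈ gk N S R} × Option κ

/-- one level, as a family -/
def stepF (θ : ℚ) (N s : ℕ) (S : List (List ℕ)) (R : ℕ) {κ : Type} (g : κ → T3)
    (z : Ix N S R κ) : T3 :=
  z.2.elim (keyT θ N s S R z.1.1) fun w => place θ N R z.1.1 (g w)

/-- one level, as a list -/
def stepL (θ : ℚ) (N s : ℕ) (S : List (List ℕ)) (R : ℕ) (L : List T3) : List T3 :=
  (gk N S R).flatMap fun v => keyT θ N s S R v :: L.map (place θ N R v)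

/-- the time of an index -/
def tm {N : ℕ} {S : List (List ℕ)} {R : ℕ} {κ : Type} (z : Ix N S R κ) : ℕ :=
  z.2.elim (tj N R z.1.1.1) fun _ => tk N R z.1.1

/-- `z` is the key of the element `x` -/
def IsV {N : ℕ} {S : List (List ℕ)} {R : ℕ} {κ : Type} (x : ℕ) (z : Ix N S R κ) : Prop :=
  z.1.1 = (0, x, 0) ∧ z.2 = none

/-- `z` does not belong to the copy below `v` -/
def Ext {N : ℕ} {S : List (List ℕ)} {R : ℕ} {κ : Type} (v : ℕ × ℕ × ℕ) (z : Ix N S R κ) : Prop :=
  z.1.1 ≠ v ∨ z.2 = none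

/-- the smallness conditions -/
structure Ctx (θ lam : ℚ) (R : ℕ) : Prop where
  pos : 0 < θ
  small : 8 * (R + 2) * θ ≤ lam
  le_one : lam ≤ 1
  one_le : 1 ≤ R

/-- the instance of level `r` that resists B-slack `E`, with its normalisation constant -/
def build : ℕ → ℕ → ℕ → List (List ℕ) → ℕ → List T3 × ℚ
  | 0, _, _, _, _ => ([], 1)
  | r + 1, N, s, S, E =>
    let ρ := E + r + 2
    let R := E + ρ * N * (r + 1) + 1
    let J := build r N s S (E + ((rep ρ N S).length + 1) * (ρ * N) * R * (r + 2))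
    let θ := J.2 / (8 * ((R : ℚ) + 2))
    ((stepL θ (ρ * N) (ρ * s) (rep ρ N S) R J.1).map (scale (1 / ((ρ * N : ℕ) + 2))),
      J.2 * θ ^ tj (ρ * N) R ((rep ρ N S).length + 1) / ((ρ * N : ℕ) + 2))

/-! ### Item sizes -/

/-- the item sizes of a family -/
def sz3 {ι : Type} (g : ι → T3) : ι ⊕ ι ⊕ ι → ℚ :=
  Sum.elim (fun i => 27 / 50 - (g i).1 / 100)
    (Sum.elim (fun i => 1 / 5 + (g i).2.1 / 100) fun i => 13 / 50 + (g i).2.2 / 100)

/-- the item sizes of a list -/
def sizes (L : List T3) : List ℚ :=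
  L.map (fun t => 27 / 50 - t.1 / 100) ++
    (L.map (fun t => 1 / 5 + t.2.1 / 100) ++ L.map fun t => 13 / 50 + t.2.2 / 100)

/-! ### Constraint problems -/

/-- well-formed clause lists: a clause is a list of allowed (variable, value) pairs -/
def CWF (nv D : ℕ) (C : List (List (ℕ × ℕ))) : Prop :=
  1 ≤ D ∧ ∀ c ∈ C, c ≠ [] ∧ ∀ p ∈ c, p.1 < nv ∧ p.2 < D

/-- satisfiability -/
def CSat (nv D : ℕ) (C : List (List (ℕ × ℕ))) : Prop :=
  ∃ σ : ℕ → ℕ, (∀ v < nv, σ v < D) ∧ ∀ c ∈ C, ∃ p ∈ c, σ p.1 = p.2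

/-- the set system of a constraint problem (elements `v * D + d`, drop `nv * (D - 1)`) -/
def toHS (nv D : ℕ) (C : List (List (ℕ × ℕ))) : List (List ℕ) :=
  ((List.range nv).map fun v => (List.range D).map fun d => v * D + d) ++
    C.map fun c => c.map fun p => p.1 * D + p.2

end Crest.Agent.R318
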