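import Crest.Agent.R318.Time

/-!
# Row 318: positions
-/

set_option autoImplicit false
set_option linter.unusedVariables false

namespace Crest.Agent.R318

open Crest.BinPacking

variable {θ lam : ℚ} {N s R : ℕ} {S : List (List ℕ)} {κ : Type} {g : κ → T3}

theorem geom_ps0 {v : ℕ × ℕ × ℕ} (h : v.1 = 0) : ps θ N R v = v.2.1 + 5 / 4 := if_pos h

theorem geom_ps1 {v : ℕ × ℕ × ℕ} (h : v.1 ≠ 0) :
    ps θ N R v = v.2.1 + 1 + (v.2.2 + 5 / 4) * sg θ N R v.1 := if_neg h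

theorem geom_key (hc : Ctx θ lam R) {e e' j : ℕ} (hj : j < R) (h : e < e') :
    ((j : ℚ) + 2) * sg θ N R e' ≤ sg θ N R e / 8 := by
  have h1 := sg_lt (N := N) hc h
  have h2 := sg_pos (N := N) hc e
  have h3 : (j : ℚ) + 1 ≤ R := by exact_mod_cast hj
  have h4 := hc.small
  have h5 := hc.le_one
  have h6 := hc.pos
  have h7 : (0 : ℚ) ≤ j := Nat.cast_nonneg _
  have h8 : ((j : ℚ) + 2) * θ ≤ 1 / 8 := by nlinarith
  calc ((j : ℚ) + 2) * sg θ N R e' ≤ ((j : ℚ) + 2) * (θ * sg θ N R e) :=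
        mul_le_mul_of_nonneg_left h1 (by linarith)
    _ = (((j : ℚ) + 2) * θ) * sg θ N R e := by ring
    _ ≤ 1 / 8 * sg θ N R e := mul_le_mul_of_nonneg_right h8 h2.le
    _ = _ := by ring

theorem geom_kp (hc : Ctx θ lam R) (v : ℕ × ℕ × ℕ) : kp θ N R v ≤ sg θ N R v.1 / 24 := by
  have h1 := kp_le (N := N) hc v
  have h2 := sg_pos (N := N) hc v.1
  have h3 := hc.theta_le
  nlinarith

theorem geom_none1 (v : {v // v ∈ gk N S R}) :
    (stepF θ N s S R g (v, none)).1 = ps θ N R v.1 + sg θ N R v.1.1 / 2 := rfl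

theorem geom_none2 (v : {v // v ∈ gk N S R}) (h : v.1.1 ≠ 0) :
    (stepF θ N s S R g (v, none)).2.1 = ps θ N R v.1 := if_neg h

theorem geom_ne (v : {v // v ∈ gk N S R}) (hz : ¬ IsV v.1.2.1 ((v, none) : Ix N S R κ)) :
    v.1.1 ≠ 0 := fun h => hz ⟨Prod.ext h (Prod.ext rfl ((mem_gk.1 v.2).2.2.2.1 h)), rfl⟩

theorem geom_isV {x : ℕ} {z : Ix N S R κ} (hz : IsV x z) : z.1.1.2.1 = x := by rw [hz.1]

/-- a set key of a later job is low -/
theorem geom_low (hc : Ctx θ lam R) {v : ℕ × ℕ × ℕ} (hv : v ∈ gk N S R) {e : ℕ} (h : e < v.1) :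
    ps θ N R v + sg θ N R v.1 / 2 ≤ v.2.1 + 1 + sg θ N R e / 8 := by
  have h1 := geom_key (N := N) hc (mem_gk.1 hv).2.2.1 h
  have h2 := sg_pos (N := N) hc v.1
  rw [geom_ps1 (by omega)]
  linarith

theorem geom_high (hc : Ctx θ lam R) (v : ℕ × ℕ × ℕ) :
    (v.2.1 : ℚ) + 1 + sg θ N R v.1 / 4 ≤ ps θ N R v := by
  have h2 := sg_pos (N := N) hc v.1
  by_cases h : v.1 = 0
  · rw [geom_ps0 h, h, sg_zero]
    linarith
  · rw [geom_ps1 h]
    have : (0 : ℚ) ≤ v.2.2 * sg θ N R v.1 := by positivity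
    linarith

theorem geom_same {v v' : ℕ × ℕ × ℕ} (h0 : v.1 ≠ 0) (he : v'.1 = v.1)
    (hx : v.2.1 = v'.2.1) (hj : v'.2.2 < v.2.2) (hs : 0 < sg θ N R v.1) :
    ps θ N R v' + sg θ N R v.1 ≤ ps θ N R v := by
  rw [geom_ps1 h0, geom_ps1 (he ▸ h0), he, hx]
  have h1 : (v'.2.2 : ℚ) + 1 ≤ v.2.2 := by exact_mod_cast hj
  nlinarith

/-- the cases for two different keys under one element -/
theorem geom_cases {v v' : ℕ × ℕ × ℕ} (hv : v ∈ gk N S R) (hv' : v' ∈ gk N S R)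
    (hx : v.2.1 = v'.2.1) (hne : v ≠ v') :
    (v.1 < v'.1 ∨ (v.1 ≠ 0 ∧ v'.1 = v.1 ∧ v'.2.2 < v.2.2)) ∨
    (v'.1 < v.1 ∨ (v'.1 ≠ 0 ∧ v.1 = v'.1 ∧ v.2.2 < v'.2.2)) := by
  have h1 := (mem_gk.1 hv).2.2.2.1
  have h2 := (mem_gk.1 hv').2.2.2.1
  have h3 : ¬ (v.1 = v'.1 ∧ v.2.2 = v'.2.2) := fun h => hne (Prod.ext h.1 (Prod.ext hx h.2))
  omega

theorem geom_sep (hc : Ctx θ lam R) {v v' : ℕ × ℕ × ℕ} (hv' : v' ∈ gk N S R)
    (hx : v.2.1 = v'.2.1) (h : v.1 < v'.1 ∨ (v.1 ≠ 0 ∧ v'.1 = v.1 ∧ v'.2.2 < v.2.2)) :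
    v'.1 ≠ 0 ∧ ps θ N R v' + sg θ N R v'.1 / 2 < ps θ N R v - kp θ N R v := by
  have h1 := geom_kp (N := N) hc v
  have h2 := sg_pos (N := N) hc v.1
  refine ⟨by omega, ?_⟩
  rcases h with h | ⟨h0, he, hj⟩
  · have h3 := geom_low hc hv' h
    have h4 := geom_high (N := N) hc v
    rw [hx] at h4
    linarith
  · have h3 := geom_same h0 he hx hj h2
    rw [he]
    linarith

theorem geom_sep' (hc : Ctx θ lam R) {v v' : ℕ × ℕ × ℕ} (hv' : v' ∈ gk N S R) (h0 : v.1 ≠ 0)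
    (hx : v.2.1 = v'.2.1) (h : v.1 < v'.1 ∨ (v.1 ≠ 0 ∧ v'.1 = v.1 ∧ v'.2.2 < v.2.2)) :
    ps θ N R v' ≤ ps θ N R v - sg θ N R v.1 := by
  have h2 := sg_pos (N := N) hc v.1
  rcases h with h | ⟨h0, he, hj⟩
  · have h3 := geom_low hc hv' h
    have h4 := sg_pos (N := N) hc v'.1
    have h5 : (0 : ℚ) ≤ v.2.2 * sg θ N R v.1 := by positivity
    rw [geom_ps1 h0, hx]
    linarith
  · have h3 := geom_same h0 he hx hj h2
    linarith

theorem geom_cap_le (hc : Ctx θ lam R) (hg : Nrm g lam) (z : Ix N S R κ) :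
    (stepF θ N s S R g z).1 ≤ ps θ N R z.1.1 + sg θ N R z.1.1.1 / 2 := by
  obtain ⟨v, _ | w⟩ := z
  · exact le_rfl
  · have h1 := kp_pos (N := N) hc v.1
    have h2 := sg_pos (N := N) hc v.1.1
    have h3 := (hg w).2.1
    change ps θ N R v.1 - kp θ N R v.1 + kp θ N R v.1 * (g w).1 ≤
      ps θ N R v.1 + sg θ N R v.1.1 / 2
    nlinarith

/-- the copy below `v` lies in the content of the element `v.2.1` -/
theorem ps_bounds (hc : Ctx θ lam R) {v : ℕ × ℕ × ℕ} (hv : v ∈ gk N S R) :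
    (v.2.1 : ℚ) + 1 ≤ ps θ N R v - kp θ N R v ∧ ps θ N R v ≤ (v.2.1 : ℚ) + 5 / 4 := by
  have h1 := geom_kp (N := N) hc v
  have h2 := sg_pos (N := N) hc v.1
  have h3 := geom_high (N := N) hc v
  refine ⟨by linarith, ?_⟩
  by_cases h : v.1 = 0
  · exact (geom_ps0 h).le
  · have h4 := geom_low hc hv (Nat.pos_of_ne_zero h)
    rw [sg_zero] at h4
    linarith

/-- the triples of the copy below `v` -/
theorem child_bounds (hc : Ctx θ lam R) (hg : Nrm g lam) (v : {v // v ∈ gk N S R}) (w : κ) :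
    ps θ N R v.1 - kp θ N R v.1 ≤ (stepF θ N s S R g (v, some w)).1 ∧
    (stepF θ N s S R g (v, some w)).1 < ps θ N R v.1 ∧
    ps θ N R v.1 - kp θ N R v.1 ≤ (stepF θ N s S R g (v, some w)).2.1 ∧
    (stepF θ N s S R g (v, some w)).2.1 < ps θ N R v.1 := by
  have h1 := kp_pos (N := N) hc v.1
  obtain ⟨a1, a2, a3, a4, -⟩ := hg w
  change _ ≤ ps θ N R v.1 - kp θ N R v.1 + kp θ N R v.1 * (g w).1 ∧
    ps θ N R v.1 - kp θ N R v.1 + kp θ N R v.1 * (g w).1 < _ ∧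
    _ ≤ ps θ N R v.1 - kp θ N R v.1 + kp θ N R v.1 * (g w).2.1 ∧
    ps θ N R v.1 - kp θ N R v.1 + kp θ N R v.1 * (g w).2.1 < _
  refine ⟨?_, ?_, ?_, ?_⟩ <;> nlinarith

/-- the key of an element -/
theorem isV_vals {x : ℕ} {z : Ix N S R κ} (hz : IsV x z) :
    (stepF θ N s S R g z).1 = (x : ℚ) + 7 / 4 ∧ (stepF θ N s S R g z).2.1 = (x : ℚ) + 1 / 4 := by
  obtain ⟨⟨v, hv⟩, o⟩ := z
  obtain ⟨h1, h2⟩ := hz
  change v = _ at h1
  change o = _ at h2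
  subst h1 h2
  constructor
  · rw [geom_none1, geom_ps0 rfl, sg_zero]
    ring
  · change (if (0 : ℕ) = 0 then ps θ N R (0, x, 0) - 1 else ps θ N R (0, x, 0)) = _
    rw [if_pos rfl, geom_ps0 rfl]
    ring

/-- every other index has capacity and A value in the content of its element -/
theorem content_bounds (hc : Ctx θ lam R) (hg : Nrm g lam) {z : Ix N S R κ}
    (hz : ¬ IsV z.1.1.2.1 z) :
    (z.1.1.2.1 : ℚ) + 1 ≤ (stepF θ N s S R g z).1 ∧
    (stepF θ N s S R g z).1 ≤ (z.1.1.2.1 : ℚ) + 5 / 4 ∧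
    (z.1.1.2.1 : ℚ) + 1 ≤ (stepF θ N s S R g z).2.1 ∧
    (stepF θ N s S R g z).2.1 ≤ (z.1.1.2.1 : ℚ) + 5 / 4 := by
  obtain ⟨v, _ | w⟩ := z
  · have h0 := geom_ne v hz
    have h1 := geom_low hc v.2 (Nat.pos_of_ne_zero h0)
    have h2 := geom_high (N := N) hc v.1
    have h3 := sg_pos (N := N) hc v.1.1
    rw [sg_zero] at h1
    rw [geom_none1, geom_none2 v h0]
    refine ⟨?_, ?_, ?_, ?_⟩ <;> linarith
  · obtain ⟨a1, a2, a3, a4⟩ := child_bounds (s := s) hc hg v w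
    obtain ⟨b1, b2⟩ := ps_bounds hc v.2
    exact ⟨b1.trans a1, a2.le.trans b2, b1.trans a3, a4.le.trans b2⟩

/-- separation of the keys under one element -/
theorem sep (hc : Ctx θ lam R) {v v' : ℕ × ℕ × ℕ} (hv : v ∈ gk N S R) (hv' : v' ∈ gk N S R)
    (hx : v.2.1 = v'.2.1) (hne : v ≠ v') :
    (v'.1 ≠ 0 ∧ ps θ N R v' + sg θ N R v'.1 / 2 < ps θ N R v - kp θ N R v) ∨
    (v.1 ≠ 0 ∧ ps θ N R v + sg θ N R v.1 / 2 < ps θ N R v' - kp θ N R v') := by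
  rcases geom_cases hv hv' hx hne with h | h
  · exact Or.inl (geom_sep hc hv' hx h)
  · exact Or.inr (geom_sep hc hv hx.symm h)

/-- the drop intervals of the set keys under one element are disjoint -/
theorem sep' (hc : Ctx θ lam R) {v v' : ℕ × ℕ × ℕ} (hv : v ∈ gk N S R) (hv' : v' ∈ gk N S R)
    (h0 : v.1 ≠ 0) (h0' : v'.1 ≠ 0) (hx : v.2.1 = v'.2.1) (hne : v ≠ v') :
    ps θ N R v' ≤ ps θ N R v - sg θ N R v.1 ∨ ps θ N R v ≤ ps θ N R v' - sg θ N R v'.1 := by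
  rcases geom_cases hv hv' hx hne with h | h
  · exact Or.inl (geom_sep' hc hv' h0 hx h)
  · exact Or.inr (geom_sep' hc hv h0' hx.symm h)

theorem ps_sub_sg (hc : Ctx θ lam R) {v : ℕ × ℕ × ℕ} (h0 : v.1 ≠ 0) :
    (v.2.1 : ℚ) + 1 ≤ ps θ N R v - sg θ N R v.1 := by
  have h2 := sg_pos (N := N) hc v.1
  have h5 : (0 : ℚ) ≤ v.2.2 * sg θ N R v.1 := by positivity
  rw [geom_ps1 h0]
  linarith

/-- capacity one at the bottom of the content of `x` -/
theorem cap_base (hc : Ctx θ lam R) (hg : Nrm g lam) (x : ℕ) {z : Ix N S R κ} (hz : ¬ IsV x z)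
    (h : (x : ℚ) + 1 ≤ (stepF θ N s S R g z).1) : (x : ℚ) + 1 ≤ (stepF θ N s S R g z).2.1 := by
  by_cases hy : IsV z.1.1.2.1 z
  · obtain ⟨a1, a2⟩ := isV_vals (θ := θ) (s := s) (g := g) hy
    have h1 : z.1.1.2.1 ≠ x := fun e => hz (e ▸ hy)
    have h2 : (x : ℚ) < z.1.1.2.1 + 1 := by linarith
    have h3 : x < z.1.1.2.1 + 1 := by exact_mod_cast h2
    have h4 : (x : ℚ) + 1 ≤ z.1.1.2.1 := by exact_mod_cast (by omega : x + 1 ≤ z.1.1.2.1)
    linarith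
  · obtain ⟨-, a2, a3, -⟩ := content_bounds (s := s) hc hg hy
    have h2 : (x : ℚ) < z.1.1.2.1 + 1 := by linarith
    have h3 : x < z.1.1.2.1 + 1 := by exact_mod_cast h2
    have h4 : (x : ℚ) ≤ z.1.1.2.1 := by exact_mod_cast (by omega : x ≤ z.1.1.2.1)
    linarith

/-- capacity one along the copy below `v` -/
theorem cap_child (hc : Ctx θ lam R) (hg : Nrm g lam) {v : ℕ × ℕ × ℕ} (hv : v ∈ gk N S R)
    {z : Ix N S R κ} (hz : ¬ IsV v.2.1 z) (he : Ext v z)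
    (h : ps θ N R v - kp θ N R v ≤ (stepF θ N s S R g z).1) :
    ps θ N R v ≤ (stepF θ N s S R g z).2.1 := by
  obtain ⟨b1, b2⟩ := ps_bounds hc hv
  by_cases hy : IsV z.1.1.2.1 z
  · obtain ⟨a1, a2⟩ := isV_vals (θ := θ) (s := s) (g := g) hy
    have h1 : z.1.1.2.1 ≠ v.2.1 := fun e => hz (e ▸ hy)
    have h2 : (v.2.1 : ℚ) < z.1.1.2.1 + 1 := by linarith
    have h3 : v.2.1 < z.1.1.2.1 + 1 := by exact_mod_cast h2
    have h4 : (v.2.1 : ℚ) + 1 ≤ z.1.1.2.1 := by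
      exact_mod_cast (by omega : v.2.1 + 1 ≤ z.1.1.2.1)
    linarith
  · obtain ⟨-, a2, a3, -⟩ := content_bounds (s := s) hc hg hy
    have h2 : (v.2.1 : ℚ) < z.1.1.2.1 + 1 := by linarith
    have h3 : v.2.1 < z.1.1.2.1 + 1 := by exact_mod_cast h2
    by_cases hx : v.2.1 = z.1.1.2.1
    · by_cases hne : v = z.1.1
      · obtain ⟨v', o⟩ := z
        have ho : o = none := he.resolve_left fun e => e hne.symm
        subst ho
        rw [geom_none2 v' (geom_ne v' hy), hne]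
      · rcases sep hc hv z.1.2 hx hne with ⟨-, h4⟩ | ⟨-, h4⟩
        · have := geom_cap_le (s := s) hc hg z
          linarith
        · have h5 := sg_pos (N := N) hc v.1
          obtain ⟨v', _ | w⟩ := z
          · have h6 := kp_pos (N := N) hc v'.1
            rw [geom_none2 v' (geom_ne v' hy)]
            change _ < ps θ N R v'.1 - kp θ N R v'.1 at h4
            linarith
          · have h6 := (child_bounds (s := s) hc hg v' w).2.2.1
            change _ < ps θ N R v'.1 - kp θ N R v'.1 at h4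
            linarith
    · have h4 : (v.2.1 : ℚ) + 1 ≤ z.1.1.2.1 := by
        exact_mod_cast (by omega : v.2.1 + 1 ≤ z.1.1.2.1)
      linarith

/-- the later jobs and the first copy of the job `e` sit at the bottom of the content -/
theorem cap_late (hc : Ctx θ lam R) (hg : Nrm g lam) {e : ℕ} (he : e ≠ 0) {z : Ix N S R κ}
    (h : e < z.1.1.1 ∨ (z.1.1.1 = e ∧ z.1.1.2.2 = 0 ∧ z.2 ≠ none)) :
    (stepF θ N s S R g z).1 < (z.1.1.2.1 : ℚ) + 1 + 3 * sg θ N R e / 2 := by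
  have h1 := sg_pos (N := N) hc e
  rcases h with h | ⟨h2, h3, h4⟩
  · have h2 := geom_low hc z.1.2 h
    have h3 := geom_cap_le (s := s) hc hg z
    linarith
  · obtain ⟨v, _ | w⟩ := z
    · exact absurd rfl h4
    · have h5 := (child_bounds (s := s) hc hg v w).2.1
      change v.1.1 = e at h2
      change v.1.2.2 = 0 at h3
      rw [geom_ps1 (h2 ▸ he), h2, h3] at h5
      change _ < (v.1.2.1 : ℚ) + 1 + _
      push_cast at h5
      linarith

theorem step_nrm (hc : Ctx θ lam R) (hg : Nrm g lam) :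
    Nrm (fun z => scale (1 / ((N : ℚ) + 2)) (stepF θ N s S R g z))
      (lam * θ ^ tj N R (S.length + 1) / ((N : ℚ) + 2)) := by
  intro z
  have hN : (0 : ℚ) < (N : ℚ) + 2 := by positivity
  have hy : (z.1.1.2.1 : ℚ) + 1 ≤ N := by exact_mod_cast (mem_gk.1 z.1.2).2.1
  have hy0 : (0 : ℚ) ≤ z.1.1.2.1 := Nat.cast_nonneg _
  have hN0 : (0 : ℚ) ≤ N := Nat.cast_nonneg _
  have h1 := be_lower (s := s) hc hg z
  have h2 := be_upper (s := s) hc hg z
  have h3 : 0 ≤ (stepF θ N s S R g z).1 ∧ (stepF θ N s S R g z).1 < N + 2 ∧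
      0 ≤ (stepF θ N s S R g z).2.1 ∧ (stepF θ N s S R g z).2.1 < N + 2 := by
    by_cases hz : IsV z.1.1.2.1 z
    · obtain ⟨a1, a2⟩ := isV_vals (θ := θ) (s := s) (g := g) hz
      refine ⟨?_, ?_, ?_, ?_⟩ <;> linarith
    · obtain ⟨a1, a2, a3, a4⟩ := content_bounds (s := s) hc hg hz
      refine ⟨?_, ?_, ?_, ?_⟩ <;> linarith
  obtain ⟨a1, a2, a3, a4⟩ := h3
  simp only [scale, one_div_mul_eq_div]
  exact ⟨div_nonneg a1 hN.le, (div_lt_one hN).2 a2, div_nonneg a3 hN.le, (div_lt_one hN).2 a4,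
    div_le_div_of_nonneg_right h1 hN.le, (div_le_one hN).2 (by linarith)⟩

end Crest.Agent.R318
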