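import Crest.Agent.R318.Lists

/-!
# Row 318: the configuration programs
-/

set_option autoImplicit false
set_option linter.unusedVariables false

namespace Crest.Agent.R318

open Crest.BinPacking

theorem lp_push {Z X : Type} [Fintype Z] [Fintype X] [DecidableEq X] (F : Z → X) (w : ℝ)
    (p : X → Prop) [DecidablePred p] :
    ∑ x ∈ Finset.univ.filter p, ∑ _z ∈ Finset.univ.filter (fun z => F z = x), w =
      ((Finset.univ.filter fun z => p (F z)).card : ℝ) * w := by
  rw [← nsmul_eq_mul, ← Finset.sum_const,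
    ← Finset.sum_fiberwise_of_maps_to (s := Finset.univ.filter fun z => p (F z))
      (t := Finset.univ.filter p) (g := F) (fun z hz => by simpa using hz)]
  refine Finset.sum_congr rfl fun x hx => Finset.sum_congr ?_ fun _ _ => rfl
  ext z
  simp only [Finset.mem_filter, Finset.mem_univ, true_and] at hx ⊢
  exact ⟨fun h => ⟨h ▸ hx, h⟩, fun h => h.2⟩

theorem lp_double {ι : Type} [Fintype ι] [DecidableEq ι] (y : Finset ι → ℝ) (p : ι → Prop)
    [DecidablePred p] :
    ∑ i ∈ Finset.univ.filter p, ∑ H ∈ Finset.univ.filter (fun H => i ∈ H), y H =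
      ∑ H, ((H.filter p).card : ℝ) * y H := by
  rw [Finset.sum_comm' (t' := Finset.univ) (s' := fun H => H.filter p)
    (fun i H => by simp [and_comm])]
  simp

theorem lp_card_le {ι : Type} [Fintype ι] [DecidableEq ι] {a : ι → ℚ} {y : Finset ι → ℝ}
    (hy : CopyLPFeasible a y) (p : ι → Prop) [DecidablePred p] :
    ((Finset.univ.filter p).card : ℝ) ≤ ∑ H, ((H.filter p).card : ℝ) * y H := by
  rw [← lp_double]
  calc ((Finset.univ.filter p).card : ℝ) = ∑ _i ∈ Finset.univ.filter p, (1 : ℝ) := by simp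
    _ ≤ _ := Finset.sum_le_sum fun i _ => hy.2.2 i

theorem sol_lp {ι : Type} [Fintype ι] [DecidableEq ι] {g : ι → T3} (h : Sol 2 g) :
    ∃ y : Finset (ι ⊕ ι ⊕ ι) → ℝ, CopyLPFeasible (sz3 g) y ∧
      copyLPCost y = (Fintype.card ι : ℝ) := by
  obtain ⟨eA, eB, he⟩ := h
  let F : ι × Fin 2 → Finset (ι ⊕ ι ⊕ ι) := fun z =>
    {Sum.inl z.1, Sum.inr (Sum.inl (eA z).1), Sum.inr (Sum.inr (eB z).1)}
  refine ⟨fun H => ∑ _z ∈ Finset.univ.filter (fun z => F z = H), (1 / 2 : ℝ),
    ⟨fun H => Finset.sum_nonneg fun _ _ => by norm_num, fun H hH => ?_, fun i => ?_⟩, ?_⟩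
  · obtain ⟨z, hz, -⟩ := Finset.exists_ne_zero_of_sum_ne_zero hH
    rw [← (Finset.mem_filter.1 hz).2]
    simp only [F]
    rw [Finset.sum_insert (by simp), Finset.sum_insert (by simp), Finset.sum_singleton]
    simp only [sz3, Sum.elim_inl, Sum.elim_inr]
    linarith [he z]
  · rw [lp_push F (1 / 2) (fun H => i ∈ H)]
    have key : ∀ (e : Equiv.Perm (ι × Fin 2)) (k : ι), (∀ z, (e z).1 = k → i ∈ F z) →
        1 ≤ ((Finset.univ.filter fun z => i ∈ F z).card : ℝ) * (1 / 2) := by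
      intro e k hk
      have h1 : 1 < (Finset.univ.filter fun z => i ∈ F z).card :=
        Finset.one_lt_card.2 ⟨e.symm (k, 0), by simpa using hk _ (by simp), e.symm (k, 1),
          by simpa using hk _ (by simp), by simp⟩
      have h2 : (2 : ℝ) ≤ (Finset.univ.filter fun z => i ∈ F z).card := by exact_mod_cast h1
      linarith
    rcases i with k | k | k
    · exact key 1 k fun z hz => by simp [F, ← hz]
    · exact key eA k fun z hz => by simp [F, ← hz]
    · exact key eB k fun z hz => by simp [F, ← hz]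
  · have := lp_push F (1 / 2) (fun _ => True)
    simp only [Finset.filter_true] at this
    unfold copyLPCost
    rw [this]
    simp

theorem card_big {ι : Type} [Fintype ι] {g : ι → T3} {lam : ℚ} (hl : 0 ≤ lam) (hg : Nrm g lam) :
    (Finset.univ.filter fun i => 1 / 2 < sz3 g i).card = Fintype.card ι := by
  have h1 : ∀ i, 1 / 2 < sz3 g (Sum.inl i) := fun i => by
    simp only [sz3, Sum.elim_inl]
    linarith [(hg i).2.1]
  have h2 : ∀ i, ¬ 1 / 2 < sz3 g (Sum.inr (Sum.inl i)) := fun i => by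
    simp only [sz3, Sum.elim_inl, Sum.elim_inr, not_lt]
    linarith [(hg i).2.2.2.1]
  have h3 : ∀ i, ¬ 1 / 2 < sz3 g (Sum.inr (Sum.inr i)) := fun i => by
    simp only [sz3, Sum.elim_inr, not_lt]
    linarith [(hg i).2.2.2.2.2]
  rw [Finset.card_filter, Fintype.sum_sum_type, Fintype.sum_sum_type]
  simp only [h1, h2, h3, if_true, if_false]
  simp

/-- grouping equal sizes -/
theorem exists_types {ι : Type} [Fintype ι] (a : ι → ℚ) :
    ∃ (m : ℕ) (σ : Fin m → ℚ) (mult : Fin m → ℕ) (e : ((j : Fin m) × Fin (mult j)) ≃ ι),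
      Function.Injective σ ∧ (∀ j, 0 < mult j) ∧ ∀ i, σ i.1 = a (e i) := by
  let s : Finset ℚ := Finset.univ.image a
  let φ : ι → Fin s.card := fun i => s.equivFin ⟨a i, Finset.mem_image_of_mem _ (Finset.mem_univ i)⟩
  refine ⟨s.card, fun j => (s.equivFin.symm j : ℚ), fun j => Fintype.card {i // φ i = j},
    (Equiv.sigmaCongrRight fun j => (Fintype.equivFin {i // φ i = j}).symm).trans
      (Equiv.sigmaFiberEquiv φ),
    Subtype.val_injective.comp s.equivFin.symm.injective, fun j => ?_, ?_⟩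
  · obtain ⟨i, -, hi⟩ := Finset.mem_image.1 (s.equivFin.symm j).2
    refine Fintype.card_pos_iff.2 ⟨⟨i, ?_⟩⟩
    simp only [φ]
    rw [← Equiv.eq_symm_apply]
    exact Subtype.ext hi
  · rintro ⟨j, t⟩
    have h := ((Fintype.equivFin {i // φ i = j}).symm t).2
    simp only [φ] at h
    rw [← Equiv.eq_symm_apply] at h
    exact (congrArg Subtype.val h).symm

theorem copy_equiv {ι κ : Type} [Fintype ι] [DecidableEq ι] [Fintype κ] [DecidableEq κ] (e : ι ≃ κ)
    {a : ι → ℚ} {b : κ → ℚ} (he : ∀ i, a i = b (e i)) {y : Finset κ → ℝ}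
    (hy : CopyLPFeasible b y) :
    ∃ y' : Finset ι → ℝ, CopyLPFeasible a y' ∧ copyLPCost y' = copyLPCost y := by
  refine ⟨fun H => y (e.finsetCongr H), ⟨fun H => hy.1 _, fun H hH => ?_, fun i => ?_⟩,
    Equiv.sum_comp e.finsetCongr y⟩
  · have := hy.2.1 _ hH
    rw [Equiv.finsetCongr_apply, Finset.sum_map] at this
    simpa only [he, Equiv.coe_toEmbedding] using this
  · refine (hy.2.2 (e i)).trans (le_of_eq (Finset.sum_equiv e.finsetCongr ?_ fun _ _ => rfl).symm)
    intro H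
    simp

theorem copy_lower {ι : Type} [Fintype ι] [DecidableEq ι] {a : ι → ℚ} (ha : ∀ i, 0 ≤ a i)
    {y : Finset ι → ℝ} (hy : CopyLPFeasible a y) :
    ((Finset.univ.filter fun i => 1 / 2 < a i).card : ℝ) ≤ copyLPCost y := by
  refine (lp_card_le hy _).trans (Finset.sum_le_sum fun H _ => ?_)
  by_cases h0 : y H = 0
  · simp [h0]
  have h1 : (H.filter fun i => 1 / 2 < a i).card ≤ 1 := by
    refine Finset.card_le_one.2 fun i hi j hj => ?_
    by_contra hne
    rw [Finset.mem_filter] at hi hj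
    have := Finset.add_le_sum (f := a) (fun k _ => ha k) hi.1 hj.1 hne
    linarith [hy.2.1 H h0, hi.2, hj.2]
  have h2 : ((H.filter fun i => 1 / 2 < a i).card : ℝ) ≤ 1 := by exact_mod_cast h1
  exact mul_le_of_le_one_left (hy.1 H) h2

theorem lp_card_fst {m : ℕ} (mult : Fin m → ℕ) (p : Fin m → Prop) [DecidablePred p] :
    (Finset.univ.filter fun i : (j : Fin m) × Fin (mult j) => p i.1).card =
      ∑ j ∈ Finset.univ.filter p, mult j := by
  rw [Finset.card_filter, Fintype.sum_sigma, Finset.sum_filter]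
  refine Finset.sum_congr rfl fun j _ => ?_
  by_cases h : p j <;> simp [h]

theorem type_of_copy {m : ℕ} {σ : Fin m → ℚ} {mult : Fin m → ℕ}
    {y : Finset ((j : Fin m) × Fin (mult j)) → ℝ} (hy : CopyLPFeasible (fun i => σ i.1) y) :
    ∃ z, TypeLPFeasible σ mult z ∧ typeLPCost z = copyLPCost y := by
  let c : Finset ((j : Fin m) × Fin (mult j)) → Fin m → ℕ := fun H j =>
    (H.filter fun i => i.1 = j).card
  have hsum : ∀ f : (Fin m → ℕ) → ℝ,
      (∑ H, Finsupp.single (c H) (y H)).sum (fun d v => f d * v) = ∑ H, f (c H) * y H := by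
    intro f
    rw [← Finsupp.sum_finsetSum_index (fun _ => mul_zero _) (fun _ _ _ => mul_add _ _ _)]
    exact Finset.sum_congr rfl fun H _ => Finsupp.sum_single_index (mul_zero _)
  refine ⟨∑ H, Finsupp.single (c H) (y H), ⟨fun d => ?_, fun d hd => ?_, fun j => ?_⟩, ?_⟩
  · rw [Finsupp.finsetSum_apply]
    refine Finset.sum_nonneg fun H _ => ?_
    rw [Finsupp.single_apply]
    split_ifs
    · exact hy.1 H
    · exact le_rfl
  · rw [Finsupp.mem_support_iff, Finsupp.finsetSum_apply] at hd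
    obtain ⟨H, -, hH⟩ := Finset.exists_ne_zero_of_sum_ne_zero hd
    rw [Finsupp.single_apply] at hH
    split_ifs at hH with h1
    · refine le_of_eq_of_le ?_ (hy.2.1 H hH)
      rw [← h1, ← Finset.sum_fiberwise H (fun i => i.1)]
      refine Finset.sum_congr rfl fun j _ => ?_
      rw [Finset.sum_congr rfl (g := fun _ => σ j) fun i hi => by rw [(Finset.mem_filter.1 hi).2],
        Finset.sum_const, nsmul_eq_mul, mul_comm]
    · exact absurd rfl hH
  · rw [hsum fun d => (d j : ℝ)]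
    have := lp_card_le hy (fun i => i.1 = j)
    rw [lp_card_fst mult (fun k => k = j), Finset.filter_eq' , if_pos (Finset.mem_univ j),
      Finset.sum_singleton] at this
    exact this
  · have := hsum fun _ => 1
    simp only [one_mul] at this
    exact this

theorem type_lower {m : ℕ} {σ : Fin m → ℚ} {mult : Fin m → ℕ} (hσ : ∀ j, 0 ≤ σ j)
    {z : (Fin m → ℕ) →₀ ℝ} (hz : TypeLPFeasible σ mult z) :
    ((Finset.univ.filter fun i : (j : Fin m) × Fin (mult j) => 1 / 2 < σ i.1).card : ℝ) ≤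
      typeLPCost z := by
  rw [lp_card_fst mult (fun j => 1 / 2 < σ j)]
  push_cast
  refine (Finset.sum_le_sum fun j _ => hz.2.2 j).trans ?_
  simp only [typeLPCost, Finsupp.sum]
  rw [Finset.sum_comm]
  refine Finset.sum_le_sum fun d hd => ?_
  rw [← Finset.sum_mul]
  refine mul_le_of_le_one_left (hz.1 d) ?_
  have h1 : ∑ j ∈ Finset.univ.filter (fun j => 1 / 2 < σ j), d j ≤ 1 := by
    by_contra hcon
    have h2 : (2 : ℚ) ≤ ∑ j ∈ Finset.univ.filter (fun j => 1 / 2 < σ j), (d j : ℚ) := by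
      exact_mod_cast (not_le.1 hcon : 1 < _)
    obtain ⟨j₀, hj₀, hd₀⟩ := Finset.exists_ne_zero_of_sum_ne_zero
      (s := Finset.univ.filter (fun j => 1 / 2 < σ j)) (f := d) (by omega)
    have h3 : ∑ j ∈ Finset.univ.filter (fun j => 1 / 2 < σ j), 1 / 2 * (d j : ℚ) <
        ∑ j ∈ Finset.univ.filter (fun j => 1 / 2 < σ j), σ j * (d j : ℚ) :=
      Finset.sum_lt_sum (fun j hj => mul_le_mul_of_nonneg_right (Finset.mem_filter.1 hj).2.le
        (Nat.cast_nonneg _)) ⟨j₀, hj₀, mul_lt_mul_of_pos_right (Finset.mem_filter.1 hj₀).2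
          (by exact_mod_cast Nat.pos_of_ne_zero hd₀)⟩
    have h4 : ∑ j ∈ Finset.univ.filter (fun j => 1 / 2 < σ j), σ j * (d j : ℚ) ≤
        ∑ j, σ j * (d j : ℚ) :=
      Finset.sum_le_sum_of_subset_of_nonneg (Finset.filter_subset _ _)
        fun j _ _ => mul_nonneg (hσ j) (Nat.cast_nonneg _)
    rw [← Finset.mul_sum] at h3
    linarith [hz.2.1 d hd]
  exact_mod_cast h1

theorem lp_final {ι : Type} [Fintype ι] [DecidableEq ι] {a : ι → ℚ}
    (ha : ∀ i, 1 / 6 < a i ∧ a i ≤ 1) {B c : ℕ}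
    (hB : (Finset.univ.filter fun i => 1 / 2 < a i).card = B) {y : Finset ι → ℝ}
    (hy : CopyLPFeasible a y) (hc : copyLPCost y = B) (hp : ¬ PacksInto a (B + c)) :
    ∃ (m : ℕ) (σ : Fin m → ℚ) (mult : Fin m → ℕ) (B : ℕ),
      Function.Injective σ ∧ (∀ j, 0 < mult j) ∧ (∀ j, 1 / 6 < σ j ∧ σ j ≤ 1) ∧
      (∃ z, TypeLPFeasible σ mult z ∧ typeLPCost z = B) ∧
      (∀ z, TypeLPFeasible σ mult z → (B : ℝ) ≤ typeLPCost z) ∧
      (∃ y : Finset ((j : Fin m) × Fin (mult j)) → ℝ,
        CopyLPFeasible (fun i => σ i.1) y ∧ copyLPCost y = B) ∧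
      (∀ y : Finset ((j : Fin m) × Fin (mult j)) → ℝ,
        CopyLPFeasible (fun i => σ i.1) y → (B : ℝ) ≤ copyLPCost y) ∧
      ¬ PacksInto (fun i : (j : Fin m) × Fin (mult j) => σ i.1) (B + c) := by
  obtain ⟨m, σ, mult, e, hinj, hpos, he⟩ := exists_types a
  have hσ : ∀ j, 1 / 6 < σ j ∧ σ j ≤ 1 := fun j => by
    have := he ⟨j, ⟨0, hpos j⟩⟩
    simp only at this
    rw [this]
    exact ha _
  have hσ0 : ∀ j, 0 ≤ σ j := fun j => by linarith [(hσ j).1]
  have hB' : (Finset.univ.filter fun i : (j : Fin m) × Fin (mult j) => 1 / 2 < σ i.1).card = B := by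
    rw [← hB]
    refine Finset.card_equiv e fun i => ?_
    simp only [Finset.mem_filter, Finset.mem_univ, true_and, he]
  obtain ⟨y', hy', hc'⟩ := copy_equiv e (a := fun i => σ i.1) he hy
  obtain ⟨z, hz, hzc⟩ := type_of_copy hy'
  refine ⟨m, σ, mult, B, hinj, hpos, hσ, ⟨z, hz, by rw [hzc, hc', hc]⟩, fun z hz => ?_,
    ⟨y', hy', by rw [hc', hc]⟩, fun y hy => ?_,
    fun h => hp ((packs_equiv e (a := fun i => σ i.1) he _).1 h)⟩
  · rw [← hB']
    exact type_lower hσ0 hz
  · rw [← hB']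
    exact copy_lower (a := fun i : (j : Fin m) × Fin (mult j) => σ i.1) (fun i => hσ0 i.1) hy

end Crest.Agent.R318
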