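import Crest.Agent.R318.Basic

/-!
# Row 318: packings
-/

set_option autoImplicit false
set_option linter.unusedVariables false

namespace Crest.Agent.R318

open Crest.BinPacking

variable {ι : Type} [Fintype ι] {g : ι → T3} {lam : ℚ}

/-- the combinatorial core: `K`, `A`, `B` are the bins of the keys, A items and B items -/
theorem pack_core {β : Type} [Fintype β] {c : ℕ} (hc : Fintype.card β = Fintype.card ι + c)
    (K A B : ι → β) (hK : Function.Injective K)
    (hB : ∀ i j j', B j = K i → B j' = K i → j = j')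
    (hA : ∀ i j k k', B j = K i → A k = K i → A k' = K i → k = k')
    (hAB : ∀ i j k, B j = K i → A k = K i → (g k).2.1 + (g j).2.2 ≤ (g i).1)
    (hA5 : ∀ (b : β) (T : Finset ι), (∀ k ∈ T, A k = b) → T.card ≤ 5)
    (hB5 : ∀ (b : β) (T : Finset ι), (∀ k ∈ T, B k = b) → T.card ≤ 5)
    (h0 : ∀ i, 0 ≤ (g i).1 ∧ 0 ≤ (g i).2.2 ∧ (g i).2.2 ≤ 1) :
    Rel g (30 * c + 1) (5 * c) := by
  classical
  obtain ⟨Fr, hFr⟩ : ∃ Fr : Finset β, Fr = Finset.univ \ Finset.univ.image K := ⟨_, rfl⟩
  have hFrc : Fr.card = c := by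
    rw [hFr, Finset.card_sdiff_of_subset (Finset.subset_univ _),
      Finset.card_image_of_injective _ hK, Finset.card_univ, Finset.card_univ, hc]
    omega
  have hFrm : ∀ b, b ∉ Fr → ∃ i, b = K i := by
    intro b hb
    rw [hFr] at hb
    simp only [Finset.mem_sdiff, Finset.mem_univ, true_and, not_not, Finset.mem_image] at hb
    obtain ⟨i, hi⟩ := hb
    exact ⟨i, hi.symm⟩
  have hBf : (Finset.univ.filter fun j => B j ∈ Fr).card ≤ 5 * c := by
    rw [← hFrc]
    exact Finset.card_le_mul_card_image_of_maps_to (f := B)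
      (fun j hj => (Finset.mem_filter.mp hj).2) 5
      fun b _ => hB5 b _ fun k hk => (Finset.mem_filter.mp hk).2
  have hgood : (Finset.univ.filter fun j => ¬ B j ∈ Fr).card ≤
      (Finset.univ.filter fun i => ∃ j, B j = K i).card := by
    refine Finset.card_le_card_of_forall_subsingleton (fun j i => B j = K i) ?_ ?_
    · intro j hj
      obtain ⟨i, hi⟩ := hFrm _ (Finset.mem_filter.mp hj).2
      exact ⟨i, Finset.mem_filter.mpr ⟨Finset.mem_univ _, j, hi⟩, hi⟩
    · intro i _ j hj j' hj'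
      exact hB i j j' hj.2 hj'.2
  have hbad : (Finset.univ.filter fun i => ¬ ∃ j, B j = K i).card ≤ 5 * c := by
    have e1 := Finset.card_filter_add_card_filter_not (s := (Finset.univ : Finset ι))
      (fun j => B j ∈ Fr)
    have e2 := Finset.card_filter_add_card_filter_not (s := (Finset.univ : Finset ι))
      (fun i => ∃ j, B j = K i)
    omega
  obtain ⟨W, hW⟩ : ∃ W : Finset β,
    W = Fr ∪ (Finset.univ.filter fun i => ¬ ∃ j, B j = K i).image K := ⟨_, rfl⟩
  have hWc : W.card ≤ 6 * c := by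
    have e1 := Finset.card_union_le Fr ((Finset.univ.filter fun i => ¬ ∃ j, B j = K i).image K)
    have e2 := Finset.card_image_le (s := Finset.univ.filter fun i => ¬ ∃ j, B j = K i) (f := K)
    rw [hW]
    omega
  have hWm : ∀ b, b ∉ W → ∃ i j, b = K i ∧ B j = K i := by
    intro b hb
    rw [hW, Finset.mem_union, not_or] at hb
    obtain ⟨i, hi⟩ := hFrm b hb.1
    by_cases h : ∃ j, B j = K i
    · obtain ⟨j, hj⟩ := h
      exact ⟨i, j, hi, hj⟩
    · exact absurd (Finset.mem_image.mpr
        ⟨i, Finset.mem_filter.mpr ⟨Finset.mem_univ _, h⟩, hi.symm⟩) hb.2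
  have hAf : (Finset.univ.filter fun k => A k ∈ W).card ≤ 30 * c := by
    have := Finset.card_le_mul_card_image_of_maps_to (f := A)
      (s := Finset.univ.filter fun k => A k ∈ W) (t := W)
      (fun j hj => (Finset.mem_filter.mp hj).2) 5
      fun b _ => hA5 b _ fun k hk => (Finset.mem_filter.mp hk).2
    omega
  have key : ∀ i, ∃ a b : ℚ, (0 ≤ b ∧ a + b ≤ (g i).1) ∧ (∀ j, B j = K i → b = (g j).2.2) ∧
      ∀ j k, B j = K i → A k = K i → a = (g k).2.1 := by
    intro i
    by_cases h1 : ∃ j, B j = K i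
    · obtain ⟨j, hj⟩ := h1
      by_cases h2 : ∃ k, A k = K i
      · obtain ⟨k, hk⟩ := h2
        exact ⟨(g k).2.1, (g j).2.2, ⟨(h0 j).2.1, hAB i j k hj hk⟩,
          fun j' hj' => by rw [hB i j j' hj hj'],
          fun j' k' hj' hk' => by rw [hA i j k k' hj hk hk']⟩
      · exact ⟨-2, (g j).2.2, ⟨(h0 j).2.1, by linarith [(h0 j).2.2, (h0 i).1]⟩,
          fun j' hj' => by rw [hB i j j' hj hj'], fun j' k' _ hk' => absurd ⟨k', hk'⟩ h2⟩
    · exact ⟨-2, 0, ⟨le_rfl, by linarith [(h0 i).1]⟩, fun j hj => absurd ⟨j, hj⟩ h1,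
        fun j _ hj _ => absurd ⟨j, hj⟩ h1⟩
  choose a b hab hb ha using key
  refine ⟨a, b, hab, fun p => ?_, fun q => ?_⟩
  · have e1 := Finset.card_filter_add_card_filter_not
      (s := Finset.univ.filter fun k => p ≤ (g k).2.1) (fun k => A k ∈ W)
    have e2 : ((Finset.univ.filter fun k => p ≤ (g k).2.1).filter fun k => A k ∈ W).card ≤
        (Finset.univ.filter fun k => A k ∈ W).card :=
      Finset.card_le_card (Finset.filter_subset_filter _ (Finset.subset_univ _))
    have e3 : ((Finset.univ.filter fun k => p ≤ (g k).2.1).filter fun k => ¬ A k ∈ W).card ≤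
        (Finset.univ.filter fun i => p ≤ a i).card := by
      refine Finset.card_le_card_of_forall_subsingleton
        (fun k i => A k = K i ∧ ∃ j, B j = K i) ?_ ?_
      · intro k hk
        obtain ⟨hk1, hk2⟩ := Finset.mem_filter.mp hk
        obtain ⟨i, j, hi, hj⟩ := hWm _ hk2
        refine ⟨i, Finset.mem_filter.mpr ⟨Finset.mem_univ _, ?_⟩, hi, j, hj⟩
        rw [ha i j k hj hi]
        exact (Finset.mem_filter.mp hk1).2
      · rintro i _ k ⟨-, hk, j, hj⟩ k' ⟨-, hk', -⟩
        exact hA i j k k' hj hk hk'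
    simp only [cnt]
    omega
  · have e1 := Finset.card_filter_add_card_filter_not
      (s := Finset.univ.filter fun k => q ≤ (g k).2.2) (fun k => B k ∈ Fr)
    have e2 : ((Finset.univ.filter fun k => q ≤ (g k).2.2).filter fun k => B k ∈ Fr).card ≤
        (Finset.univ.filter fun k => B k ∈ Fr).card :=
      Finset.card_le_card (Finset.filter_subset_filter _ (Finset.subset_univ _))
    have e3 : ((Finset.univ.filter fun k => q ≤ (g k).2.2).filter fun k => ¬ B k ∈ Fr).card ≤
        (Finset.univ.filter fun i => q ≤ b i).card := by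
      refine Finset.card_le_card_of_forall_subsingleton (fun j i => B j = K i) ?_ ?_
      · intro j hj
        obtain ⟨hj1, hj2⟩ := Finset.mem_filter.mp hj
        obtain ⟨i, hi⟩ := hFrm _ hj2
        refine ⟨i, Finset.mem_filter.mpr ⟨Finset.mem_univ _, ?_⟩, hi⟩
        rw [hb i j hi]
        exact (Finset.mem_filter.mp hj1).2
      · intro i _ j hj j' hj'
        exact hB i j j' hj.2 hj'.2
    simp only [cnt]
    omega

theorem pack_rel (hl : 0 ≤ lam) (hg : Nrm g lam) {c : ℕ}
    (h : PacksInto (sz3 g) (Fintype.card ι + c)) : Rel g (30 * c + 1) (5 * c) := by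
  classical
  obtain ⟨f, hf⟩ := h
  have hK : ∀ i, 53 / 100 < sz3 g (Sum.inl i) := fun i => by
    have := (hg i).2.1
    simp only [sz3, Sum.elim_inl]
    linarith
  have hA : ∀ i, 1 / 5 ≤ sz3 g (Sum.inr (Sum.inl i)) := fun i => by
    have := (hg i).2.2.1
    simp only [sz3, Sum.elim_inl, Sum.elim_inr]
    linarith
  have hB : ∀ i, 13 / 50 ≤ sz3 g (Sum.inr (Sum.inr i)) := fun i => by
    have := (hg i).2.2.2.2.1
    simp only [sz3, Sum.elim_inr]
    linarith
  have hall : ∀ x, 1 / 5 ≤ sz3 g x := by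
    rintro (i | i | i)
    · linarith [hK i]
    · exact hA i
    · linarith [hB i]
  have hsub : ∀ (b : Fin (Fintype.card ι + c)) (T : Finset (ι ⊕ ι ⊕ ι)), (∀ x ∈ T, f x = b) →
      ∑ x ∈ T, sz3 g x ≤ 1 := by
    intro b T hT
    refine le_trans (Finset.sum_le_sum_of_subset_of_nonneg
      (fun x hx => Finset.mem_filter.mpr ⟨Finset.mem_univ _, hT x hx⟩) fun x _ _ => ?_) (hf b)
    linarith [hall x]
  have h5 : ∀ (u : ι → ι ⊕ ι ⊕ ι), Function.Injective u → ∀ (b : Fin (Fintype.card ι + c))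
      (T : Finset ι), (∀ k ∈ T, f (u k) = b) → T.card ≤ 5 := by
    intro u hu b T hT
    have h1 := hsub b (T.image u) (by
      intro x hx
      obtain ⟨k, hk, rfl⟩ := Finset.mem_image.mp hx
      exact hT k hk)
    have h2 := Finset.card_nsmul_le_sum (T.image u) (sz3 g) (1 / 5) fun x _ => hall x
    rw [Finset.card_image_of_injective _ hu, nsmul_eq_mul] at h2
    have h3 : (T.card : ℚ) ≤ 5 := by linarith
    exact_mod_cast h3
  refine pack_core (β := Fin (Fintype.card ι + c)) (Fintype.card_fin _) (fun i => f (Sum.inl i))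
    (fun i => f (Sum.inr (Sum.inl i))) (fun i => f (Sum.inr (Sum.inr i))) ?_ ?_ ?_ ?_
    (h5 _ fun _ _ h => Sum.inl_injective (Sum.inr_injective h))
    (h5 _ fun _ _ h => Sum.inr_injective (Sum.inr_injective h))
    fun i => ⟨(hg i).1, hl.trans (hg i).2.2.2.2.1, (hg i).2.2.2.2.2⟩
  · intro i i' h
    by_contra hne
    have h1 := hsub (f (Sum.inl i')) {Sum.inl i, Sum.inl i'} (by simpa using h)
    rw [Finset.sum_pair (by simpa using hne)] at h1
    linarith [hK i, hK i']
  · intro i j j' h h'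
    by_contra hne
    have h1 := hsub (f (Sum.inl i)) {Sum.inl i, Sum.inr (Sum.inr j), Sum.inr (Sum.inr j')}
      (by simpa using ⟨h, h'⟩)
    rw [Finset.sum_insert (by simp), Finset.sum_pair (by simpa using hne)] at h1
    linarith [hK i, hB j, hB j']
  · intro i j k k' h h' h''
    by_contra hne
    have h1 := hsub (f (Sum.inl i))
      {Sum.inl i, Sum.inr (Sum.inr j), Sum.inr (Sum.inl k), Sum.inr (Sum.inl k')}
      (by simpa using ⟨h, h', h''⟩)
    rw [Finset.sum_insert (by simp), Finset.sum_insert (by simp),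
      Finset.sum_pair (by simpa using hne)] at h1
    linarith [hK i, hB j, hA k, hA k']
  · intro i j k h h'
    have h1 := hsub (f (Sum.inl i)) {Sum.inl i, Sum.inr (Sum.inr j), Sum.inr (Sum.inl k)}
      (by simpa using ⟨h, h'⟩)
    rw [Finset.sum_insert (by simp), Finset.sum_pair (by simp)] at h1
    simp only [sz3, Sum.elim_inl, Sum.elim_inr] at h1
    linarith

theorem sol_pack (h : Sol 1 g) : PacksInto (sz3 g) (Fintype.card ι) := by
  classical
  obtain ⟨eA, eB, h⟩ := h
  let u : Equiv.Perm (ι × Fin 1) → ι ≃ ι := fun e =>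
    (Equiv.prodUnique ι (Fin 1)).symm.trans (e.trans (Equiv.prodUnique ι (Fin 1)))
  have hu : ∀ i, (g (u eA i)).2.1 + (g (u eB i)).2.2 ≤ (g i).1 := fun i => h (i, default)
  let e := Fintype.equivFin ι
  refine ⟨Sum.elim e (Sum.elim (fun k => e ((u eA).symm k)) fun k => e ((u eB).symm k)),
    fun b => ?_⟩
  obtain ⟨i, rfl⟩ := e.surjective b
  rw [Finset.sum_filter, Fintype.sum_sum_type, Fintype.sum_sum_type]
  simp only [Sum.elim_inl, Sum.elim_inr, e.apply_eq_iff_eq, Equiv.symm_apply_eq,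
    Finset.sum_ite_eq', Finset.mem_univ, if_true, sz3]
  linarith [hu i]

end Crest.Agent.R318
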