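import Crest.Agent.R318.Defs
import Crest.Agent.Lib.PolyTime.More

/-!
# Row 318: the construction runs in polynomial time
-/

set_option autoImplicit false
set_option linter.unusedVariables false

namespace Crest.Agent.R318

open Crest.BinPacking

open Crest.Agent.Lib.PolyTime

variable {α : Type} [PEnc α]

/-- the position of a key, given its scale -/
def PolyB_ps (σ : ℚ) (v : ℕ × ℕ × ℕ) : ℚ :=
  if v.1 = 0 then v.2.1 + 5 / 4 else v.2.1 + 1 + (v.2.2 + 5 / 4) * σ

/-- the triples of a key and of the copy below it, given the two scales -/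
def PolyB_one (σ κ : ℚ) (s : ℕ) (S : List (List ℕ)) (L : List T3) (v : ℕ × ℕ × ℕ) : List T3 :=
  (PolyB_ps σ v + σ / 2, if v.1 = 0 then PolyB_ps σ v - 1 else PolyB_ps σ v,
    if (if v.1 = 0 then decide (v.2.1 < s) else decide (v.2.1 = (S.getD (v.1 - 1) []).headD 0)) = true
    then 3 * σ / 2 else σ / 2) ::
  L.map fun t => (PolyB_ps σ v - κ + κ * t.1, PolyB_ps σ v - κ + κ * t.2.1, κ * t.2.2)

@[fun_prop] theorem PolyB_poly_ps {σ : α → ℚ} {v : α → ℕ × ℕ × ℕ} (hσ : Poly σ) (hv : Poly v) :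
    Poly fun a => PolyB_ps (σ a) (v a) := by
  unfold PolyB_ps
  fun_prop

theorem PolyB_poly_one {σ κ : α → ℚ} {s : α → ℕ} {S : α → List (List ℕ)} {L : α → List T3}
    {v : α → ℕ × ℕ × ℕ} (hσ : Poly σ) (hκ : Poly κ) (hs : Poly s) (hS : Poly S) (hL : Poly L)
    (hv : Poly v) : Poly fun a => PolyB_one (σ a) (κ a) (s a) (S a) (L a) (v a) := by
  unfold PolyB_one
  fun_prop

theorem PolyB_flat {g : α → List (ℕ × ℕ × ℕ)} {σ κ : α × ℕ × ℕ × ℕ → ℚ} {s : α → ℕ}
    {S : α → List (List ℕ)} {L : α → List T3} (hg : Poly g) (hσ : Poly σ) (hκ : Poly κ) (hs : Poly s)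
    (hS : Poly S) (hL : Poly L) :
    Poly fun a => (g a).flatMap fun v => PolyB_one (σ (a, v)) (κ (a, v)) (s a) (S a) (L a) v :=
  hg.flatMap (f := fun a v => PolyB_one (σ (a, v)) (κ (a, v)) (s a) (S a) (L a) v)
    (PolyB_poly_one (σ := σ) (κ := κ) (s := fun p => s p.1) (S := fun p => S p.1)
      (L := fun p => L p.1) (v := fun p => p.2) hσ hκ (by fun_prop) (by fun_prop) (by fun_prop)
      (by fun_prop))

theorem PolyB_mem {N R : ℕ} {S : List (List ℕ)} {v : ℕ × ℕ × ℕ} (hv : v ∈ gk N S R) :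
    v.1 ≤ S.length ∧ v.2.1 < N ∧ v.2.2 < R := by
  obtain ⟨e, he, h⟩ := List.mem_flatMap.1 (List.mem_filter.1 hv).1
  obtain ⟨x, hx, h⟩ := List.mem_flatMap.1 h
  obtain ⟨j, hj, rfl⟩ := List.mem_map.1 h
  exact ⟨Nat.lt_succ_iff.1 (List.mem_range.1 he), List.mem_range.1 hx, List.mem_range.1 hj⟩

theorem poly_stepL {θ : α → ℚ} {N s R : α → ℕ} {S : α → List (List ℕ)} {L : α → List T3}
    (hθ : Poly θ) (hN : Poly N) (hN' : PB N) (hs : Poly s) (hS : Poly S) (hR : Poly R) (hR' : PB R)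
    (hL : Poly L) : Poly fun a => stepL (θ a) (N a) (s a) (S a) (R a) (L a) := by
  have h1 : Poly fun a => gk (N a) (S a) (R a) := by
    show Poly fun a => ((List.range ((S a).length + 1)).flatMap fun e => (List.range (N a)).flatMap
      fun x => (List.range (R a)).map fun j => (e, x, j)).filter fun v =>
        if v.1 = 0 then decide (v.2.2 = 0) else decide (v.2.1 ∈ (S a).getD (v.1 - 1) [])
    fun_prop
  obtain ⟨B, hB⟩ : ∃ B : α → ℕ, B = fun a => (S a).length * (N a * R a + 1) + 1 + N a * R a + R a :=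
    ⟨_, rfl⟩
  have b1 : Poly B := by rw [hB]; fun_prop
  have b2 : PB B := by rw [hB]; fun_prop
  have b3 : PB fun p : α × ℕ × ℕ × ℕ => B p.1 := b2.comp (by fun_prop)
  have h2 : Poly fun p : α × ℕ × ℕ × ℕ => θ p.1 ^ min (p.2.1 * (N p.1 * R p.1 + 1)) (B p.1) :=
    Poly.monoidPow (by fun_prop) (by fun_prop) (PB.min_right _ b3)
  have h3 : Poly fun p : α × ℕ × ℕ × ℕ =>
      θ p.1 ^ min (p.2.1 * (N p.1 * R p.1 + 1) + 1 + p.2.2.1 * R p.1 + p.2.2.2) (B p.1) :=
    Poly.monoidPow (by fun_prop) (by fun_prop) (PB.min_right _ b3)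
  refine (PolyB_flat h1 h2 h3 hs hS hL).congr fun a => List.flatMap_congr fun v hv => ?_
  show PolyB_one (θ a ^ min (v.1 * (N a * R a + 1)) (B a))
    (θ a ^ min (v.1 * (N a * R a + 1) + 1 + v.2.1 * R a + v.2.2) (B a)) (s a) (S a) (L a) v = _
  obtain ⟨v1, v2, v3⟩ := PolyB_mem hv
  have e1 : v.1 * (N a * R a + 1) ≤ (S a).length * (N a * R a + 1) := Nat.mul_le_mul_right _ v1
  have e2 : v.2.1 * R a ≤ N a * R a := Nat.mul_le_mul_right _ v2.le
  have e3 : B a = (S a).length * (N a * R a + 1) + 1 + N a * R a + R a := by rw [hB]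
  rw [Nat.min_eq_left (by omega), Nat.min_eq_left (by omega)]
  rfl

theorem poly_build (r : ℕ) {N s E : α → ℕ} {S : α → List (List ℕ)} (hN : Poly N) (hN' : PB N)
    (hs : Poly s) (hS : Poly S) (hE : Poly E) (hE' : PB E) :
    Poly fun a => build r (N a) (s a) (S a) (E a) := by
  induction r generalizing E with
  | zero => exact Lib.PolyTime.Poly.const _
  | succ r ih =>
    obtain ⟨ρ, hρ⟩ : ∃ ρ : α → ℕ, ρ = fun a => E a + r + 2 := ⟨_, rfl⟩
    have r1 : Poly ρ := by rw [hρ]; fun_prop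
    have r2 : PB ρ := by rw [hρ]; fun_prop
    obtain ⟨R, hR⟩ : ∃ R : α → ℕ, R = fun a => E a + ρ a * N a * (r + 1) + 1 := ⟨_, rfl⟩
    have R1 : Poly R := by rw [hR]; fun_prop
    have R2 : PB R := by rw [hR]; fun_prop
    obtain ⟨T, hT⟩ : ∃ T : α → List (List ℕ), T = fun a => rep (ρ a) (N a) (S a) := ⟨_, rfl⟩
    have T1 : Poly T := by
      rw [hT]
      show Poly fun a => (List.range (ρ a)).flatMap fun i => (S a).map fun l =>
        l.map fun x => x + i * N a
      fun_prop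
    obtain ⟨J, hJ⟩ : ∃ J : α → List T3 × ℚ, J = fun a => build r (N a) (s a) (S a)
      (E a + ((T a).length + 1) * (ρ a * N a) * R a * (r + 2)) := ⟨_, rfl⟩
    have J1 : Poly J := hJ ▸ ih (by fun_prop) (by fun_prop)
    obtain ⟨θ, hθ⟩ : ∃ θ : α → ℚ, θ = fun a => (J a).2 / (8 * ((R a : ℚ) + 2)) := ⟨_, rfl⟩
    have θ1 : Poly θ := by rw [hθ]; fun_prop
    have h1 := poly_stepL (N := fun a => ρ a * N a) (s := fun a => ρ a * s a)
      (L := fun a => (J a).1) θ1 (by fun_prop) (by fun_prop) (by fun_prop) T1 R1 R2 (by fun_prop)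
    have h2 : Poly fun a => θ a ^ (((T a).length + 1) * (ρ a * N a * R a + 1)) :=
      Poly.monoidPow θ1 (by fun_prop) (by fun_prop)
    have h3 : Poly fun a => (1 / ((ρ a * N a : ℕ) + 2) : ℚ) := by fun_prop
    have h4 : Poly fun a => ((stepL (θ a) (ρ a * N a) (ρ a * s a) (T a) (R a) (J a).1).map
        (scale (1 / ((ρ a * N a : ℕ) + 2))),
        (J a).2 * θ a ^ (((T a).length + 1) * (ρ a * N a * R a + 1)) / ((ρ a * N a : ℕ) + 2)) := by
      refine Poly.pair (h1.map (f := fun a => scale (1 / ((ρ a * N a : ℕ) + 2))) ?_) (by fun_prop)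
      show Poly fun p : α × T3 => ((1 / ((ρ p.1 * N p.1 : ℕ) + 2) : ℚ) * p.2.1,
        (1 / ((ρ p.1 * N p.1 : ℕ) + 2) : ℚ) * p.2.2.1, (1 / ((ρ p.1 * N p.1 : ℕ) + 2) : ℚ) * p.2.2.2)
      fun_prop
    subst hθ hJ hT hR hρ
    exact h4

theorem poly_code {L : α → List T3} (hL : Poly L) :
    Poly fun a => Crest.Enc.natCode (sizes (L a)).length ++
      ((sizes (L a)).map Crest.Enc.ratCode).flatten ++ Crest.Enc.natCode (L a).length := by
  have h : Poly fun a => sizes (L a) := by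
    show Poly fun a => (L a).map (fun t => 27 / 50 - t.1 / 100) ++
      ((L a).map (fun t => 1 / 5 + t.2.1 / 100) ++ (L a).map fun t => 13 / 50 + t.2.2 / 100)
    fun_prop
  fun_prop

end Crest.Agent.R318
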