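import Crest.Agent.R318.Child

/-!
# Row 318: soundness of one level
-/

set_option autoImplicit false
set_option linter.unusedVariables false
set_option linter.unusedSectionVars false

namespace Crest.Agent.R318

open Crest.BinPacking

variable {θ lam : ℚ} {N s R r E : ℕ} {S : List (List ℕ)} {κ : Type} [Fintype κ] {g : κ → T3}
  {a b : Ix N S R κ → ℚ}

/-- `z` drops across the whole content of the element `y` -/
def Covers (θ : ℚ) (s : ℕ) (g : κ → T3) (a : Ix N S R κ → ℚ) (z : Ix N S R κ) (y : ℕ) : Prop :=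
  (y : ℚ) + 5 / 4 ≤ (stepF θ N s S R g z).1 ∧ a z < (y : ℚ) + 1 ∧ (IsV y z ∨ z.1.1.2.1 = y + 1)

/-- a covering index drops across every copy under its element -/
theorem Sound_cover (hc : Ctx θ lam R) {v : ℕ × ℕ × ℕ} (hv : v ∈ gk N S R) {z : Ix N S R κ}
    (hz : Covers θ s g a z v.2.1) :
    Ext v z ∧ ps θ N R v - kp θ N R v ≤ (stepF θ N s S R g z).1 ∧
      a z < ps θ N R v - kp θ N R v := by
  obtain ⟨h1, h2, h3⟩ := hz
  obtain ⟨b1, b2⟩ := ps_bounds hc hv
  have hk := kp_pos (N := N) hc v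
  refine ⟨?_, by linarith, by linarith⟩
  rcases h3 with h3 | h3
  · exact Or.inr h3.2
  · refine Or.inl fun h => ?_
    rw [h] at h3
    omega

theorem Sound_vmem (hc : Ctx θ lam R) {x : ℕ} (hx : x < N) : ((0, x, 0) : ℕ × ℕ × ℕ) ∈ gk N S R :=
  mem_gk.2 ⟨Nat.zero_le _, hx, hc.one_le, fun _ => rfl, fun h => absurd rfl h⟩

theorem Sound_vcount (hc : Ctx θ lam R) (hw : WF N s S) :
    s ≤ cnt (fun z => (stepF θ N s S R g z).2.2) (3 / 2) := by
  classical
  unfold cnt
  have key : (Finset.univ : Finset (Fin s)).card ≤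
      (Finset.univ.filter fun z : Ix N S R κ => (3 / 2 : ℚ) ≤ (stepF θ N s S R g z).2.2).card := by
    refine Finset.card_le_card_of_injOn
      (fun x : Fin s => ((⟨(0, x.1, 0), Sound_vmem hc (lt_of_lt_of_le x.2 hw.1)⟩, none) : Ix N S R κ))
      ?_ ?_
    · intro x _
      simp only [Finset.coe_filter, Finset.mem_univ, true_and, Set.mem_ofPred_eq]
      simp [stepF, keyT, sg_zero]
    · intro x _ y _ h
      simp only [Prod.mk.injEq, Subtype.mk.injEq] at h
      exact Fin.ext h.1.2.1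
  simpa using key

theorem Sound_notV {e : ℕ} (he : e ≠ 0) {z : Ix N S R κ} (h : e ≤ z.1.1.1) (x : ℕ) : ¬ IsV x z := by
  intro hz
  have := hz.1
  rw [this] at h
  exact he (Nat.le_zero.1 h)

theorem Sound_getD_mem {e : ℕ} (he : e ≠ 0) (he' : e ≤ S.length) : S.getD (e - 1) [] ∈ S := by
  have h : e - 1 < S.length := by omega
  rw [List.getD_eq_getElem _ _ h]
  exact List.getElem_mem h

theorem Sound_head_mem {l : List ℕ} (h : l ≠ []) : l.headD 0 ∈ l := by
  cases l with
  | nil => exact absurd rfl h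
  | cons x t => simp

theorem vertex_job (hc : Ctx θ lam R) (hg : Nrm g lam) (hw : WF N s S)
    (hno : ¬ Rel g r (E + (S.length + 1) * N * R * (r + 2)))
    (h1 : ∀ z, 0 ≤ b z ∧ a z + b z ≤ (stepF θ N s S R g z).1)
    (h2 : ∀ p, cnt (fun z => (stepF θ N s S R g z).2.1) p + 1 ≤ cnt a p + (r + 1))
    (h3 : ∀ q, cnt (fun z => (stepF θ N s S R g z).2.2) q ≤ cnt b q + E) :
    ∃ I : Finset ℕ, (∀ y ∈ I, y < N ∧ ∃ z, Covers θ s g a z y) ∧ s ≤ I.card + E + (r + 1) := by
  classical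
  set R0 : Finset (Ix N S R κ) := Finset.univ.filter fun z => (3 / 2 : ℚ) ≤ b z with hR0
  have hs : s ≤ R0.card + E := le_trans (Sound_vcount (g := g) hc hw) (h3 (3 / 2))
  set P : Ix N S R κ → Prop := fun z => ¬ IsV z.1.1.2.1 z ∧ z.1.1.2.1 = 0 with hP
  have hex : (R0.filter P).card ≤ r + 1 := by
    refine le_trans (Finset.card_le_card ?_) (drop_base hc hg h1 h2 0)
    intro z hz
    rw [Finset.mem_filter] at hz
    obtain ⟨hz1, hz2, hz3⟩ := hz
    have hb : (3 / 2 : ℚ) ≤ b z := (Finset.mem_filter.1 hz1).2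
    obtain ⟨c1, c2, -, -⟩ := content_bounds (s := s) hc hg hz2
    rw [hz3] at c1 c2
    have := (h1 z).2
    simp only [Finset.mem_filter, Finset.mem_univ, true_and]
    push_cast at c1 c2 ⊢
    constructor <;> linarith
  set φ : Ix N S R κ → ℕ := fun z => if IsV z.1.1.2.1 z then z.1.1.2.1 else z.1.1.2.1 - 1 with hφ
  have hcov : ∀ z ∈ R0.filter (fun z => ¬ P z), φ z < N ∧ Covers θ s g a z (φ z) := by
    intro z hz
    rw [Finset.mem_filter] at hz
    obtain ⟨hz1, hz2⟩ := hz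
    have hb : (3 / 2 : ℚ) ≤ b z := (Finset.mem_filter.1 hz1).2
    have hN : z.1.1.2.1 < N := (mem_gk.1 z.1.2).2.1
    have ha := (h1 z).2
    by_cases hV : IsV z.1.1.2.1 z
    · have e1 : φ z = z.1.1.2.1 := by simp only [hφ, if_pos hV]
      rw [e1]
      obtain ⟨c1, -⟩ := isV_vals (θ := θ) (s := s) (g := g) hV
      exact ⟨hN, by linarith, by linarith, Or.inl hV⟩
    · have hne : z.1.1.2.1 ≠ 0 := fun h => hz2 ⟨hV, h⟩
      have e1 : z.1.1.2.1 = φ z + 1 := by simp only [hφ, if_neg hV]; omega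
      obtain ⟨c1, c2, -, -⟩ := content_bounds (s := s) hc hg hV
      have e2 : (z.1.1.2.1 : ℚ) = (φ z : ℚ) + 1 := by exact_mod_cast e1
      exact ⟨by omega, by linarith, by linarith, Or.inr e1⟩
  refine ⟨(R0.filter fun z => ¬ P z).image φ, ?_, ?_⟩
  · intro y hy
    obtain ⟨z, hz, rfl⟩ := Finset.mem_image.1 hy
    exact ⟨(hcov z hz).1, z, (hcov z hz).2⟩
  · rw [Finset.card_image_of_injOn]
    · have := Finset.card_filter_add_card_filter_not (s := R0) P
      omega
    · intro z hz w hw' hzw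
      obtain ⟨hzN, hzc⟩ := hcov z hz
      obtain ⟨-, hwc⟩ := hcov w hw'
      rw [← hzw] at hwc
      have hv : ((0, φ z, 0) : ℕ × ℕ × ℕ) ∈ gk N S R := Sound_vmem hc hzN
      obtain ⟨p1, p2, p3⟩ := Sound_cover hc hv hzc
      obtain ⟨q1, q2, q3⟩ := Sound_cover hc hv hwc
      exact ext_unique hc hg hno h1 h2 h3 hv p1 q1 p2 p3 q2 q3

theorem edge_count (hc : Ctx θ lam R) (hg : Nrm g lam) (hw : WF N s S)
    (h3 : ∀ q, cnt (fun z => (stepF θ N s S R g z).2.2) q ≤ cnt b q + E) {e : ℕ} (he : e ≠ 0)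
    (he' : e ≤ S.length) :
    R ≤ (Finset.univ.filter fun z : Ix N S R κ =>
      e ≤ z.1.1.1 ∧ 3 * sg θ N R e / 2 ≤ b z).card + E := by
  classical
  have hl := Sound_getD_mem he he'
  obtain ⟨hne, hlt⟩ := hw.2 _ hl
  have hh := Sound_head_mem hne
  have hmem : ∀ j : Fin R, ((e, (S.getD (e - 1) []).headD 0, j.1) : ℕ × ℕ × ℕ) ∈ gk N S R :=
    fun j => mem_gk.2 ⟨he', hlt _ hh, j.2, fun h => absurd h he, fun _ => hh⟩
  set q : ℚ := 3 * sg θ N R e / 2 with hq
  set A : Finset (Ix N S R κ) := Finset.univ.filter fun z => z.1.1.1 < e with hA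
  set ψ : Fin R → Ix N S R κ := fun j => (⟨_, hmem j⟩, none) with hψ
  have hinj : Function.Injective ψ := by
    intro i j h
    simp only [hψ, Prod.mk.injEq, Subtype.mk.injEq] at h
    exact Fin.ext h.1.2.2
  have hdisj : Disjoint A (Finset.univ.image ψ) := by
    rw [Finset.disjoint_left]
    intro z hz hz'
    obtain ⟨j, -, rfl⟩ := Finset.mem_image.1 hz'
    have := (Finset.mem_filter.1 hz).2
    exact lt_irrefl _ this
  have hsg := sg_pos (N := N) hc e
  have low : A.card + R ≤ cnt (fun z => (stepF θ N s S R g z).2.2) q := by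
    have : (A ∪ Finset.univ.image ψ).card = A.card + R := by
      rw [Finset.card_union_of_disjoint hdisj, Finset.card_image_of_injective _ hinj]
      simp
    rw [← this]
    unfold cnt
    refine Finset.card_le_card ?_
    intro z hz
    simp only [Finset.mem_filter, Finset.mem_univ, true_and]
    rcases Finset.mem_union.1 hz with hz | hz
    · have h1 : z.1.1.1 < e := (Finset.mem_filter.1 hz).2
      have h2 : tm z < tj N R e := by
        by_contra h
        exact absurd ((tj_le_tm z).1 (not_lt.1 h)) (not_le.2 h1)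
      have h4 := be_early (s := s) hc hg h2
      have h5 : sg θ N R e = θ ^ tj N R e := rfl
      rw [← h5] at h4
      linarith
    · obtain ⟨j, -, rfl⟩ := Finset.mem_image.1 hz
      simp [hψ, stepF, keyT, he, hq]
  have up : cnt b q ≤ A.card +
      (Finset.univ.filter fun z : Ix N S R κ => e ≤ z.1.1.1 ∧ q ≤ b z).card := by
    unfold cnt
    refine le_trans (Finset.card_le_card ?_) (Finset.card_union_le _ _)
    intro z hz
    have hb := (Finset.mem_filter.1 hz).2
    rw [Finset.mem_union]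
    by_cases h : z.1.1.1 < e
    · exact Or.inl (Finset.mem_filter.2 ⟨Finset.mem_univ _, h⟩)
    · exact Or.inr (Finset.mem_filter.2 ⟨Finset.mem_univ _, not_lt.1 h, hb⟩)
  have := h3 q
  omega

theorem edge_job (hc : Ctx θ lam R) (hg : Nrm g lam) (hw : WF N s S) (hR : E + N * (r + 1) < R)
    (h1 : ∀ z, 0 ≤ b z ∧ a z + b z ≤ (stepF θ N s S R g z).1)
    (h2 : ∀ p, cnt (fun z => (stepF θ N s S R g z).2.1) p + 1 ≤ cnt a p + (r + 1))
    (h3 : ∀ q, cnt (fun z => (stepF θ N s S R g z).2.2) q ≤ cnt b q + E) {e : ℕ} (he : e ≠ 0)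
    (he' : e ≤ S.length) :
    ∃ v ∈ gk N S R, v.1 = e ∧ ∃ z : Ix N S R κ, Ext v z ∧ z.1.1.2.1 = v.2.1 ∧ ¬ IsV v.2.1 z ∧
      ps θ N R v - kp θ N R v ≤ (stepF θ N s S R g z).1 ∧ a z < ps θ N R v - kp θ N R v := by
  classical
  by_contra hcon
  have hcount := edge_count hc hg hw h3 he he'
  have hsg := sg_pos (N := N) hc e
  have hθ := hc.theta_le
  have hkp : ∀ v : ℕ × ℕ × ℕ, v.1 = e → 0 < kp θ N R v ∧ kp θ N R v ≤ sg θ N R e / 24 := by
    intro v hv
    refine ⟨kp_pos hc v, ?_⟩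
    have h := kp_le (N := N) hc v
    rw [hv] at h
    nlinarith
  have hsub : (Finset.univ.filter fun z : Ix N S R κ =>
      e ≤ z.1.1.1 ∧ 3 * sg θ N R e / 2 ≤ b z) ⊆ (Finset.range N).biUnion fun x : ℕ =>
        Finset.univ.filter fun z => (x : ℚ) + 1 ≤ (stepF θ N s S R g z).1 ∧ a z < (x : ℚ) + 1 := by
    intro z hz
    obtain ⟨hz1, hz2⟩ := (Finset.mem_filter.1 hz).2
    have hzg := mem_gk.1 z.1.2
    have hV := Sound_notV he hz1
    have ha := (h1 z).2
    obtain ⟨c1, -, -, -⟩ := content_bounds (s := s) hc hg (hV _)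
    rw [Finset.mem_biUnion]
    refine ⟨z.1.1.2.1, Finset.mem_range.2 hzg.2.1, Finset.mem_filter.2 ⟨Finset.mem_univ _, c1, ?_⟩⟩
    by_cases hl : e < z.1.1.1 ∨ (z.1.1.1 = e ∧ z.1.1.2.2 = 0 ∧ z.2 ≠ none)
    · have := cap_late (s := s) hc hg he hl
      linarith
    · exfalso
      apply hcon
      have hze : z.1.1.1 = e := by
        by_contra h
        exact hl (Or.inl (lt_of_le_of_ne hz1 (Ne.symm h)))
      obtain ⟨v, o⟩ := z
      cases o with
      | none =>
        obtain ⟨k1, k2⟩ := hkp v.1 hze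
        have hcap : (stepF θ N s S R g (v, none)).1 = ps θ N R v.1 + sg θ N R e / 2 := by
          rw [← hze]; rfl
        refine ⟨v.1, v.2, hze, (v, none), Or.inr rfl, rfl, hV _, ?_, ?_⟩ <;> linarith
      | some w =>
        obtain ⟨⟨e', x, j⟩, hv⟩ := v
        simp only at hze hzg
        subst hze
        have hj : j ≠ 0 := fun h => hl (Or.inr ⟨rfl, h, by simp⟩)
        obtain ⟨j, rfl⟩ := Nat.exists_eq_succ_of_ne_zero hj
        have hv' : ((e', x, j) : ℕ × ℕ × ℕ) ∈ gk N S R :=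
          mem_gk.2 ⟨hzg.1, hzg.2.1, by have := hzg.2.2.1; simp only; omega,
            fun h => absurd h he, hzg.2.2.2.2⟩
        obtain ⟨k1, k2⟩ := hkp (e', x, j) rfl
        obtain ⟨k3, k4⟩ := hkp (e', x, j + 1) rfl
        obtain ⟨d1, d2, -, -⟩ := child_bounds (s := s) hc hg ⟨_, hv⟩ w
        have hps : ps θ N R (e', x, j + 1) = ps θ N R (e', x, j) + sg θ N R e' := by
          simp only [ps, if_neg he]
          push_cast
          ring
        simp only [Nat.succ_eq_add_one] at d1 d2 ha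
        refine ⟨(e', x, j), hv', rfl, (⟨_, hv⟩, some w), Or.inl ?_, rfl, hV _, ?_, ?_⟩
        · simp
        · linarith
        · linarith
  have hle := le_trans (Finset.card_le_card hsub)
    (Finset.card_biUnion_le_card_mul _ _ (r + 1) fun x _ => drop_base hc hg h1 h2 x)
  rw [Finset.card_range] at hle
  omega

theorem step_sound (hc : Ctx θ lam R) (hg : Nrm g lam) (hw : WF N s S)
    (hgap : Gap N s S (E + r + 2)) (hR : E + N * (r + 1) < R)
    (hno : ¬ Rel g r (E + (S.length + 1) * N * R * (r + 2))) :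
    ¬ Rel (stepF θ N s S R g) (r + 1) E := by
  rintro ⟨a, b, h1, h2, h3⟩
  obtain ⟨I, hI, hs⟩ := vertex_job hc hg hw hno h1 h2 h3
  have := hgap I (fun x hx => (hI x hx).1) ?_
  · omega
  intro l hl
  obtain ⟨i, hi, rfl⟩ := List.getElem_of_mem hl
  obtain ⟨v, hv, hve, z, hz, hzx, hzV, hz1, hz2⟩ :=
    edge_job hc hg hw hR h1 h2 h3 (e := i + 1) (Nat.succ_ne_zero i) hi
  refine ⟨v.2.1, ?_, fun hx => ?_⟩
  · have h := (mem_gk.1 hv).2.2.2.2 (by omega)
    rw [hve, Nat.add_sub_cancel, List.getD_eq_getElem _ _ hi] at h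
    exact h
  · obtain ⟨-, w, hw'⟩ := hI _ hx
    obtain ⟨q1, q2, q3⟩ := Sound_cover hc hv hw'
    have e1 := ext_unique hc hg hno h1 h2 h3 hv hz q1 hz1 hz2 q2 q3
    subst e1
    rcases hw'.2.2 with h | h
    · exact hzV h
    · omega

end Crest.Agent.R318
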