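import Crest.Agent.R318.Defs
import Crest.Agent.R290.Tableau
import Crest.Agent.Lib.PolyTime.More

/-!
# Row 318: the tableau of a table machine as a constraint problem
-/

set_option autoImplicit false
set_option linter.unusedVariables false

namespace Crest.Agent.R318

open Crest.BinPacking

open Crest.Agent.R290 Crest.Agent.Lib.PolyTime

namespace Tab

open Crest.Agent.R290.Tab

/-- number of the variable `(k, y, t)` -/
def vr (n W k y t : ℕ) : ℕ := (t * n + k) * W + y

/-- the clause `prem → c` -/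
def imp (D : ℕ) (prem : List (ℕ × ℕ)) (c : ℕ × ℕ) : List (ℕ × ℕ) :=
  c :: prem.flatMap fun p => ((List.range D).filter fun d => decide (d ≠ p.2)).map fun d => (p.1, d)

/-- the source cell -/
def src (M : Tbl) (q g s y : ℕ) : ℕ :=
  if s ≠ M.stk q ∨ M.op q g = 0 then y else if M.op q g = 1 then y + 1 else y - 1

/-- the new value -/
def val (M : Tbl) (q g s y g' : ℕ) : ℕ :=
  if s = M.stk q ∧ 2 ≤ M.op q g ∧ y = 0 then M.op q g - 1 else g'

/-- the initial clauses -/
def ini (u : List Bool) (m v s y : ℕ) : List (ℕ × ℕ) :=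
  if s = 0 ∧ y < u.length then [(v, Tbl.sym (u.getD y false))]
  else if s = 0 ∧ y < u.length + m then [(v, 1), (v, 2)] else [(v, 0)]

/-- all clauses -/
def cl (M : Tbl) (u : List Bool) (m T W : ℕ) : List (List (ℕ × ℕ)) :=
  [(vr (M.nS + 1) W M.nS 0 0, 2)] :: [(vr (M.nS + 1) W M.nS 0 T, 1)] ::
    (((List.range M.nS).flatMap fun s => (List.range W).map fun y =>
      ini u m (vr (M.nS + 1) W s y 0) s y) ++
    (List.range T).flatMap fun t => (List.range M.nQ).flatMap fun q =>
      (List.range M.nG).flatMap fun g =>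
        imp M.length [(vr (M.nS + 1) W M.nS 0 t, q), (vr (M.nS + 1) W (M.stk q) 0 t, g)]
          (vr (M.nS + 1) W M.nS 0 (t + 1), M.nxt q g) ::
        (List.range M.nS).flatMap fun s => (List.range (W - 1)).flatMap fun y =>
          (List.range M.nG).map fun g' =>
            imp M.length [(vr (M.nS + 1) W M.nS 0 t, q), (vr (M.nS + 1) W (M.stk q) 0 t, g),
              (vr (M.nS + 1) W s (src M q g s y) t, g')]
              (vr (M.nS + 1) W s y (t + 1), val M q g s y g'))

theorem poly_cl (M : Tbl) : Poly fun a : List Bool × Un × Un =>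
    cl M a.1 a.2.1.n a.2.2.n (a.1.length + a.2.1.n + a.2.2.n + 1) := by
  unfold cl ini imp src val vr Tbl.stk Tbl.op Tbl.nxt Tbl.sym
  fun_prop

theorem forall_cl {M : Tbl} {u : List Bool} {m T W : ℕ} {P : List (ℕ × ℕ) → Prop} :
    (∀ c ∈ cl M u m T W, P c) ↔ P [(vr (M.nS + 1) W M.nS 0 0, 2)] ∧
      P [(vr (M.nS + 1) W M.nS 0 T, 1)] ∧
      (∀ s < M.nS, ∀ y < W, P (ini u m (vr (M.nS + 1) W s y 0) s y)) ∧
      ∀ t < T, ∀ q < M.nQ, ∀ g < M.nG,
        P (imp M.length [(vr (M.nS + 1) W M.nS 0 t, q), (vr (M.nS + 1) W (M.stk q) 0 t, g)]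
          (vr (M.nS + 1) W M.nS 0 (t + 1), M.nxt q g)) ∧
        ∀ s < M.nS, ∀ y < W - 1, ∀ g' < M.nG,
          P (imp M.length [(vr (M.nS + 1) W M.nS 0 t, q), (vr (M.nS + 1) W (M.stk q) 0 t, g),
              (vr (M.nS + 1) W s (src M q g s y) t, g')]
              (vr (M.nS + 1) W s y (t + 1), val M q g s y g')) := by
  simp only [cl, List.forall_mem_cons, List.forall_mem_append, List.forall_mem_flatMap,
    List.forall_mem_map, List.mem_range]

theorem vr_lt {n W k y t T : ℕ} (hk : k < n) (hy : y < W) (ht : t ≤ T) :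
    vr n W k y t < (T + 1) * n * W := by
  have h1 : t * n + k + 1 ≤ (T + 1) * n := by nlinarith
  have h2 := Nat.mul_le_mul_right W h1
  unfold vr
  nlinarith

theorem vr_dec {n W k y t : ℕ} (hk : k < n) (hy : y < W) :
    vr n W k y t % W = y ∧ vr n W k y t / W % n = k ∧ vr n W k y t / W / n = t := by
  have h1 : vr n W k y t / W = t * n + k := by
    rw [vr, add_comm, Nat.add_mul_div_right _ _ (by omega), Nat.div_eq_of_lt hy, zero_add]
  refine ⟨?_, ?_, ?_⟩
  · rw [vr, add_comm, Nat.add_mul_mod_self_right, Nat.mod_eq_of_lt hy]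
  · rw [h1, add_comm, Nat.add_mul_mod_self_right, Nat.mod_eq_of_lt hk]
  · rw [h1, add_comm, Nat.add_mul_div_right _ _ (by omega), Nat.div_eq_of_lt hk, zero_add]

theorem mem_imp {D : ℕ} {prem : List (ℕ × ℕ)} {c p : ℕ × ℕ} :
    p ∈ imp D prem c ↔ p = c ∨ ∃ r ∈ prem, p.1 = r.1 ∧ p.2 < D ∧ p.2 ≠ r.2 := by
  simp only [imp, List.mem_cons, List.mem_flatMap, List.mem_map, List.mem_filter, List.mem_range,
    decide_eq_true_eq]
  refine or_congr_right (exists_congr fun r => and_congr_right fun _ => ⟨?_, ?_⟩)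
  · rintro ⟨d, ⟨h1, h2⟩, rfl⟩
    exact ⟨rfl, h1, h2⟩
  · rintro ⟨h1, h2, h3⟩
    exact ⟨p.2, ⟨h2, h3⟩, by rw [← h1]⟩

theorem imp_wf {nv D : ℕ} {prem : List (ℕ × ℕ)} {c : ℕ × ℕ} (h1 : c.1 < nv) (h2 : c.2 < D)
    (h : ∀ r ∈ prem, r.1 < nv) : imp D prem c ≠ [] ∧ ∀ p ∈ imp D prem c, p.1 < nv ∧ p.2 < D := by
  refine ⟨List.cons_ne_nil _ _, fun p hp => ?_⟩
  rcases mem_imp.1 hp with rfl | ⟨r, hr, e, h3, -⟩
  · exact ⟨h1, h2⟩
  · exact ⟨e ▸ h r hr, h3⟩

theorem imp_sound {D : ℕ} {prem : List (ℕ × ℕ)} {c : ℕ × ℕ} {σ : ℕ → ℕ}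
    (h : ∃ p ∈ imp D prem c, σ p.1 = p.2) (hp : ∀ r ∈ prem, σ r.1 = r.2) : σ c.1 = c.2 := by
  obtain ⟨p, hp1, hp2⟩ := h
  rcases mem_imp.1 hp1 with rfl | ⟨r, hr, e, -, h3⟩
  · exact hp2
  · exact absurd (hp2.symm.trans (e ▸ hp r hr)) h3

theorem imp_complete {D : ℕ} {prem : List (ℕ × ℕ)} {c : ℕ × ℕ} {σ : ℕ → ℕ} (hD : ∀ v, σ v < D)
    (h : (∀ r ∈ prem, σ r.1 = r.2) → σ c.1 = c.2) : ∃ p ∈ imp D prem c, σ p.1 = p.2 := by
  by_cases hp : ∀ r ∈ prem, σ r.1 = r.2
  · exact ⟨c, mem_imp.2 (Or.inl rfl), h hp⟩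
  · push Not at hp
    obtain ⟨r, hr, hne⟩ := hp
    exact ⟨(r.1, σ r.1), mem_imp.2 (Or.inr ⟨r, hr, rfl, hD _, hne⟩), rfl⟩

variable {M : Tbl}

theorem src_le (q g s y : ℕ) : src M q g s y ≤ y + 1 := by
  unfold src
  split_ifs <;> omega

theorem cell_step (hM : M.WF) (w : List Bool) (s y t : ℕ) :
    cell M w s y (t + 1) = val M (st M w t) (tp M w t) s y
      (cell M w s (src M (st M w t) (tp M w t) s y) t) := by
  rw [cell_succ hM (st_lt hM t), val, src]
  split_ifs <;> first | rfl | omega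

theorem nG_le (M : Tbl) : M.nG ≤ M.length := min_le_right _ _

theorem nQ_le (M : Tbl) : M.nQ ≤ M.length := min_le_right _ _

theorem wf (hM : M.WF) (u : List Bool) (m T : ℕ) {W : ℕ} (hW : 0 < W) :
    CWF ((T + 1) * (M.nS + 1) * W) M.length (cl M u m T W) := by
  have hG := hM.nG
  have hQ := hM.nQ
  have hG' := nG_le M
  have hQ' := nQ_le M
  refine ⟨by omega, forall_cl.2 ⟨?_, ?_, fun s hs y hy => ?_, fun t ht q hq g hg => ⟨?_, ?_⟩⟩⟩
  · simp only [ne_eq, List.cons_ne_nil, not_false_eq_true, List.forall_mem_singleton, true_and]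
    exact ⟨vr_lt (by omega) hW (by omega), by omega⟩
  · simp only [ne_eq, List.cons_ne_nil, not_false_eq_true, List.forall_mem_singleton, true_and]
    exact ⟨vr_lt (by omega) hW (by omega), by omega⟩
  · have h1 : vr (M.nS + 1) W s y 0 < (T + 1) * (M.nS + 1) * W := vr_lt (by omega) hy (by omega)
    unfold ini Tbl.sym
    split_ifs <;> simp [h1] <;> omega
  · have h1 := hM.stk q hq
    have h2 := hM.nxt q hq g hg
    refine imp_wf (vr_lt (by omega) hW (by omega)) (by simp only; omega) ?_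
    simp only [List.forall_mem_cons, List.not_mem_nil, false_imp_iff, implies_true, and_true]
    exact ⟨vr_lt (by omega) hW (by omega), vr_lt (by omega) hW (by omega)⟩
  · intro s hs y hy g' hg'
    have h1 := hM.stk q hq
    have h2 := hM.op q hq g hg
    have h3 := src_le (M := M) q g s y
    refine imp_wf (vr_lt (by omega) (by omega) (by omega)) ?_ ?_
    · simp only [val]
      split_ifs <;> omega
    · simp only [List.forall_mem_cons, List.not_mem_nil, false_imp_iff, implies_true, and_true]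
      exact ⟨vr_lt (by omega) hW (by omega), vr_lt (by omega) hW (by omega),
        vr_lt (by omega) (by omega) (by omega)⟩

theorem cell0 (w : List Bool) (s y : ℕ) :
    cell M w s y 0 = if s = 0 ∧ y < w.length then Tbl.sym (w.getD y false) else 0 := by
  cases s with
  | zero => simp [cell_zero_zero]
  | succ s => simp [cell_succ_zero]

theorem sound (hM : M.WF) {u : List Bool} {m T W : ℕ} (hW : T < W) (hW' : u.length + m ≤ W)
    {σ : ℕ → ℕ} (h : ∀ c ∈ cl M u m T W, ∃ p ∈ c, σ p.1 = p.2) :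
    ∃ w : List Bool, w.length = m ∧ M.Halts (u ++ w) T true := by
  obtain ⟨h1, h2, h3, h4⟩ := forall_cl.1 h
  simp only [List.mem_singleton, exists_eq_left] at h1 h2
  set w : List Bool := (List.range m).map fun i =>
    decide (σ (vr (M.nS + 1) W 0 (u.length + i) 0) = 2) with hw
  have hl : w.length = m := by simp [hw]
  have key : ∀ t ≤ T, σ (vr (M.nS + 1) W M.nS 0 t) = st M (u ++ w) t ∧
      ∀ s < M.nS, ∀ y, y + t < W → σ (vr (M.nS + 1) W s y t) = cell M (u ++ w) s y t := by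
    intro t
    induction t with
    | zero =>
      refine fun _ => ⟨h1, fun s hs y hy => ?_⟩
      have h5 := h3 s hs y hy
      rw [cell0, List.length_append, hl]
      unfold ini at h5
      by_cases c1 : s = 0 ∧ y < u.length
      · rw [if_pos c1] at h5
        simp only [List.mem_singleton, exists_eq_left] at h5
        rw [if_pos ⟨c1.1, by omega⟩, h5, List.getD_append _ _ _ _ c1.2]
      rw [if_neg c1] at h5
      by_cases c2 : s = 0 ∧ y < u.length + m
      · rw [if_pos c2] at h5 ⊢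
        obtain ⟨rfl, c2⟩ := c2
        obtain ⟨i, rfl⟩ := Nat.exists_eq_add_of_le (show u.length ≤ y by omega)
        rw [List.getD_append_right _ _ _ _ (by omega), Nat.add_sub_cancel_left, hw,
          List.getD_eq_getElem _ _ (by simp; omega)]
        simp only [List.mem_cons, List.not_mem_nil, or_false, exists_eq_or_imp,
          exists_eq_left] at h5
        rcases h5 with h5 | h5 <;> simp [h5, Tbl.sym]
      · rw [if_neg c2] at h5 ⊢
        simpa using h5
    | succ t ih =>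
      intro ht
      obtain ⟨i1, i2⟩ := ih (by omega)
      have hq := st_lt (w := u ++ w) hM t
      obtain ⟨j1, j2⟩ := h4 t (by omega) _ hq _ (tp_lt (w := u ++ w) hM t)
      have i3 := i2 _ (hM.stk _ hq) 0 (by omega)
      refine ⟨?_, fun s hs y hy => ?_⟩
      · rw [st_succ]
        refine imp_sound j1 ?_
        simp only [List.forall_mem_cons, List.not_mem_nil, false_imp_iff, implies_true, and_true]
        exact ⟨i1, i3⟩
      · rw [cell_step hM]
        have h5 := src_le (M := M) (st M (u ++ w) t) (tp M (u ++ w) t) s y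
        refine imp_sound (j2 s hs y (by omega) _ (cell_lt hM _ _ _)) ?_
        simp only [List.forall_mem_cons, List.not_mem_nil, false_imp_iff, implies_true, and_true]
        exact ⟨i1, i3, i2 s hs _ (by omega)⟩
  exact ⟨w, hl, (key T le_rfl).1.symm.trans h2⟩

theorem complete (hM : M.WF) {u w : List Bool} {T W : ℕ} (hW : 0 < W)
    (h : M.Halts (u ++ w) T true) : ∃ σ : ℕ → ℕ, (∀ v, σ v < M.length) ∧
      ∀ c ∈ cl M u w.length T W, ∃ p ∈ c, σ p.1 = p.2 := by
  let σ : ℕ → ℕ := fun v => if v / W % (M.nS + 1) = M.nS then st M (u ++ w) (v / W / (M.nS + 1))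
    else cell M (u ++ w) (v / W % (M.nS + 1)) (v % W) (v / W / (M.nS + 1))
  have hD : ∀ v, σ v < M.length := by
    intro v
    simp only [σ]
    split_ifs
    · exact (st_lt hM _).trans_le (nQ_le M)
    · exact (cell_lt hM _ _ _).trans_le (nG_le M)
  have e1 : ∀ t, σ (vr (M.nS + 1) W M.nS 0 t) = st M (u ++ w) t := by
    intro t
    obtain ⟨-, a, b⟩ := vr_dec (t := t) (Nat.lt_succ_self M.nS) hW
    simp only [σ, a, b, if_true]
  have e2 : ∀ s < M.nS, ∀ y < W, ∀ t, σ (vr (M.nS + 1) W s y t) = cell M (u ++ w) s y t := by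
    intro s hs y hy t
    obtain ⟨c, a, b⟩ := vr_dec (t := t) (Nat.lt_succ_of_lt hs) hy
    simp only [σ, a, b, c, if_neg hs.ne]
  refine ⟨σ, hD, forall_cl.2 ⟨?_, ?_, fun s hs y hy => ?_, fun t ht q hq g hg => ⟨?_, ?_⟩⟩⟩
  · exact ⟨_, List.mem_singleton_self _, e1 0⟩
  · exact ⟨_, List.mem_singleton_self _, (e1 T).trans h⟩
  · have h5 := e2 s hs y hy 0
    rw [cell0, List.length_append] at h5
    unfold ini
    by_cases c1 : s = 0 ∧ y < u.length
    · rw [if_pos c1]
      refine ⟨_, List.mem_singleton_self _, ?_⟩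
      rw [h5, if_pos ⟨c1.1, by omega⟩, List.getD_append _ _ _ _ c1.2]
    rw [if_neg c1]
    by_cases c2 : s = 0 ∧ y < u.length + w.length
    · rw [if_pos c2] at h5 ⊢
      simp only [List.mem_cons, List.not_mem_nil, or_false, exists_eq_or_imp, exists_eq_left, h5,
        Tbl.sym]
      split_ifs <;> simp
    · rw [if_neg c2] at h5 ⊢
      exact ⟨_, List.mem_singleton_self _, h5⟩
  · refine imp_complete hD ?_
    simp only [List.forall_mem_cons, List.not_mem_nil, false_imp_iff, implies_true, and_true,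
      e1, e2 _ (hM.stk q hq) 0 hW]
    rintro ⟨rfl, rfl⟩
    exact st_succ t
  · intro s hs y hy g' hg'
    have h5 := src_le (M := M) q g s y
    refine imp_complete hD ?_
    simp only [List.forall_mem_cons, List.not_mem_nil, false_imp_iff, implies_true, and_true,
      e1, e2 _ (hM.stk q hq) 0 hW, e2 s hs y (by omega), e2 s hs (src M q g s y) (by omega)]
    rintro ⟨rfl, rfl, rfl⟩
    exact cell_step hM _ s y t

end Tab

/-- Cook-Levin for table machines: the input is `u` followed by `m` free bits, the time bound is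
`T`. -/
theorem exists_tableau (M : Tbl) (hM : M.WF) :
    ∃ (nv : List Bool × Un × Un → ℕ) (D : ℕ) (C : List Bool × Un × Un → List (List (ℕ × ℕ))),
      Poly nv ∧ PB nv ∧ Poly C ∧ ∀ (u : List Bool) (m T : ℕ),
        CWF (nv (u, ⟨m⟩, ⟨T⟩)) D (C (u, ⟨m⟩, ⟨T⟩)) ∧
        (CSat (nv (u, ⟨m⟩, ⟨T⟩)) D (C (u, ⟨m⟩, ⟨T⟩)) ↔
          ∃ w : List Bool, w.length = m ∧ M.Halts (u ++ w) T true) := by
  refine ⟨fun a => (a.2.2.n + 1) * (M.nS + 1) * (a.1.length + a.2.1.n + a.2.2.n + 1), M.length, _,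
    by fun_prop, by fun_prop, Tab.poly_cl M, fun u m T => ⟨Tab.wf hM u m T (Nat.succ_pos _), ?_, ?_⟩⟩
  · rintro ⟨σ, -, h⟩
    exact Tab.sound hM (by simp only; omega) (by simp only; omega) h
  · rintro ⟨w, rfl, h⟩
    obtain ⟨σ, h1, h2⟩ := Tab.complete hM (Nat.succ_pos (u.length + w.length + T)) h
    exact ⟨σ, fun v _ => h1 v, h2⟩

end Crest.Agent.R318
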