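import Crest.Agent.R318.Basic

/-!
# Row 318: times and scales
-/

set_option autoImplicit false
set_option linter.unusedVariables false

namespace Crest.Agent.R318

open Crest.BinPacking

variable {θ lam : ℚ} {N s R : ℕ} {S : List (List ℕ)} {κ : Type} {g : κ → T3}

theorem Time_mem {v : ℕ × ℕ × ℕ} (hv : v ∈ gk N S R) :
    v.1 < S.length + 1 ∧ v.2.1 < N ∧ v.2.2 < R := by
  unfold gk at hv
  have h := (List.mem_filter.1 hv).1
  simp only [List.mem_flatMap, List.mem_map, List.mem_range] at h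
  obtain ⟨e, he, x, hx, j, hj, rfl⟩ := h
  exact ⟨he, hx, hj⟩

theorem Time_24 (hc : Ctx θ lam R) : 24 * θ ≤ lam := by
  have h1 : (1 : ℚ) ≤ R := by exact_mod_cast hc.one_le
  have h2 := hc.small
  have h3 := hc.pos
  nlinarith

theorem Time_tj_mono {e e' : ℕ} (h : e ≤ e') : tj N R e ≤ tj N R e' := Nat.mul_le_mul_right _ h

theorem Time_tj_lt {e e' : ℕ} (h : e < e') : tj N R e < tj N R e' :=
  Nat.mul_lt_mul_of_pos_right h (Nat.succ_pos _)

theorem Ctx.theta_le (hc : Ctx θ lam R) : θ ≤ 1 / 24 := by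
  have := Time_24 hc
  have := hc.le_one
  linarith

theorem sg_pos (hc : Ctx θ lam R) (e : ℕ) : 0 < sg θ N R e := by
  exact pow_pos hc.pos _

theorem kp_pos (hc : Ctx θ lam R) (v : ℕ × ℕ × ℕ) : 0 < kp θ N R v := by
  exact pow_pos hc.pos _

theorem sg_zero : sg θ N R 0 = 1 := by
  simp [sg, tj]

/-- later times have much smaller scales -/
theorem pow_le_of_lt (hc : Ctx θ lam R) {t t' : ℕ} (h : t < t') : θ ^ t' ≤ θ * θ ^ t := by
  rw [← pow_succ']
  exact pow_le_pow_of_le_one hc.pos.le (hc.theta_le.trans (by norm_num)) h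

theorem kp_le (hc : Ctx θ lam R) (v : ℕ × ℕ × ℕ) : kp θ N R v ≤ θ * sg θ N R v.1 := by
  refine pow_le_of_lt hc ?_
  unfold tj tk
  omega

theorem sg_lt (hc : Ctx θ lam R) {e e' : ℕ} (h : e < e') : sg θ N R e' ≤ θ * sg θ N R e := by
  exact pow_le_of_lt hc (Time_tj_lt h)

theorem tk_bounds {v : ℕ × ℕ × ℕ} (hv : v ∈ gk N S R) :
    tj N R v.1 < tk N R v ∧ tk N R v < tj N R (v.1 + 1) := by
  obtain ⟨-, hx, hj⟩ := Time_mem hv
  have h1 : (v.2.1 + 1) * R ≤ N * R := Nat.mul_le_mul_right _ hx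
  unfold tj tk
  rw [Nat.add_mul] at h1
  rw [Nat.add_mul v.1 1]
  omega

theorem Time_tm_bounds (z : Ix N S R κ) :
    tj N R z.1.1.1 ≤ tm z ∧ tm z < tj N R (z.1.1.1 + 1) := by
  obtain ⟨v, o⟩ := z
  cases o with
  | none => exact ⟨le_rfl, Time_tj_lt (Nat.lt_succ_self _)⟩
  | some w => exact ⟨(tk_bounds v.2).1.le, (tk_bounds v.2).2⟩

theorem Time_tk_inj {v v' : ℕ × ℕ × ℕ} (hv : v ∈ gk N S R) (hv' : v' ∈ gk N S R)
    (h : tk N R v = tk N R v') : v = v' := by
  have b := tk_bounds hv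
  have b' := tk_bounds hv'
  have he : v.1 = v'.1 := by
    rcases lt_trichotomy v.1 v'.1 with h1 | h1 | h1
    · have := Time_tj_mono (N := N) (R := R) (Nat.succ_le_of_lt h1)
      simp only [Nat.succ_eq_add_one] at this
      omega
    · exact h1
    · have := Time_tj_mono (N := N) (R := R) (Nat.succ_le_of_lt h1)
      simp only [Nat.succ_eq_add_one] at this
      omega
  obtain ⟨-, -, hj⟩ := Time_mem hv
  obtain ⟨-, -, hj'⟩ := Time_mem hv'
  unfold tk at h
  rw [he] at h
  have hx : v.2.1 = v'.2.1 := by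
    rcases lt_trichotomy v.2.1 v'.2.1 with h1 | h1 | h1
    · have h2 : (v.2.1 + 1) * R ≤ v'.2.1 * R := Nat.mul_le_mul_right _ h1
      rw [Nat.add_mul] at h2
      omega
    · exact h1
    · have h2 : (v'.2.1 + 1) * R ≤ v.2.1 * R := Nat.mul_le_mul_right _ h1
      rw [Nat.add_mul] at h2
      omega
  rw [hx] at h
  exact Prod.ext he (Prod.ext hx (by omega))

theorem Time_be_cases (hc : Ctx θ lam R) (hg : Nrm g lam) (z : Ix N S R κ) :
    lam / 2 * θ ^ tm z ≤ (stepF θ N s S R g z).2.2 ∧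
      (stepF θ N s S R g z).2.2 ≤ 3 / 2 * θ ^ tm z ∧
      (θ ^ tm z / 2 ≤ (stepF θ N s S R g z).2.2 ∨ lam * θ ^ tm z ≤ (stepF θ N s S R g z).2.2) := by
  obtain ⟨v, o⟩ := z
  have h0 := Time_24 hc
  have h1 := hc.le_one
  have h2 := hc.pos
  cases o with
  | none =>
    have hp : 0 < θ ^ tj N R v.1.1 := pow_pos hc.pos _
    have hl : lam * θ ^ tj N R v.1.1 ≤ 1 * θ ^ tj N R v.1.1 := mul_le_mul_of_nonneg_right h1 hp.le
    simp only [stepF, tm, Option.elim, keyT, sg]
    split_ifs <;> exact ⟨by linarith, by linarith, Or.inl (by linarith)⟩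
  | some w =>
    have hp : 0 < θ ^ tk N R v.1 := pow_pos hc.pos _
    obtain ⟨-, -, -, -, a, b⟩ := hg w
    have ha := mul_le_mul_of_nonneg_left a hp.le
    have hb := mul_le_mul_of_nonneg_left b hp.le
    have hl : 0 ≤ θ ^ tk N R v.1 * lam := mul_nonneg hp.le (by linarith)
    simp only [stepF, tm, Option.elim, place, kp]
    exact ⟨by linarith, by linarith, Or.inr (by linarith)⟩

theorem tj_le_tm {e : ℕ} (z : Ix N S R κ) : tj N R e ≤ tm z ↔ e ≤ z.1.1.1 := by
  obtain ⟨h1, h2⟩ := Time_tm_bounds z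
  constructor
  · intro h
    by_contra hlt
    have := Time_tj_mono (N := N) (R := R) (Nat.succ_le_of_lt (not_le.1 hlt))
    simp only [Nat.succ_eq_add_one] at this
    omega
  · intro h
    exact (Time_tj_mono h).trans h1

theorem tm_lt (z : Ix N S R κ) : tm z < tj N R (S.length + 1) := by
  exact (Time_tm_bounds z).2.trans_le (Time_tj_mono (Time_mem z.1.2).1)

/-- only the copy below `v` lives at the time of that copy -/
theorem tm_ne {v : ℕ × ℕ × ℕ} (hv : v ∈ gk N S R) {z : Ix N S R κ} (hz : Ext v z) :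
    tm z ≠ tk N R v := by
  obtain ⟨u, o⟩ := z
  have b := tk_bounds hv
  cases o with
  | none =>
    intro h
    change tj N R u.1.1 = tk N R v at h
    rcases le_or_gt u.1.1 v.1 with h1 | h1
    · have := Time_tj_mono (N := N) (R := R) h1
      omega
    · have := Time_tj_mono (N := N) (R := R) (Nat.succ_le_of_lt h1)
      simp only [Nat.succ_eq_add_one] at this
      omega
  | some w =>
    intro h
    rcases hz with hz | hz
    · exact hz (Time_tk_inj u.2 hv h)
    · exact absurd hz (by simp)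

/-- earlier indices have large B values -/
theorem be_early (hc : Ctx θ lam R) (hg : Nrm g lam) {z : Ix N S R κ} {t : ℕ} (h : tm z < t) :
    2 * θ ^ t ≤ (stepF θ N s S R g z).2.2 := by
  have h1 := (Time_be_cases (s := s) hc hg z).1
  have h2 := pow_le_of_lt hc h
  have hp : 0 < θ ^ tm z := pow_pos hc.pos _
  have h3 := mul_le_mul_of_nonneg_right (Time_24 hc) hp.le
  have h4 : 0 < θ * θ ^ tm z := mul_pos hc.pos hp
  linarith

theorem be_lower (hc : Ctx θ lam R) (hg : Nrm g lam) (z : Ix N S R κ) :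
    lam * θ ^ tj N R (S.length + 1) ≤ (stepF θ N s S R g z).2.2 := by
  have h1 := (Time_be_cases (s := s) hc hg z).1
  have h2 := pow_le_of_lt hc (tm_lt z)
  have hp : 0 < θ ^ tm z := pow_pos hc.pos _
  have h3 := mul_le_mul_of_nonneg_right hc.theta_le hp.le
  have h4 : 0 ≤ lam := by linarith [Time_24 hc, hc.pos]
  have h5 : θ ^ tj N R (S.length + 1) ≤ θ ^ tm z / 2 := by linarith
  have h6 := mul_le_mul_of_nonneg_left h5 h4
  linarith

theorem be_upper (hc : Ctx θ lam R) (hg : Nrm g lam) (z : Ix N S R κ) :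
    (stepF θ N s S R g z).2.2 ≤ 3 / 2 := by
  have h1 := (Time_be_cases (s := s) hc hg z).2.1
  have h2 : θ ^ tm z ≤ 1 := pow_le_one₀ hc.pos.le (hc.theta_le.trans (by norm_num))
  linarith

/-- a later copy is narrower than the smallest B value of an earlier copy -/
theorem kp_later (hc : Ctx θ lam R) {t : ℕ} {v : ℕ × ℕ × ℕ} (h : t < tk N R v) :
    kp θ N R v ≤ lam * θ ^ t := by
  have h2 := pow_le_of_lt hc h
  have hp : 0 < θ ^ t := pow_pos hc.pos _
  have h3 := mul_le_mul_of_nonneg_right (Time_24 hc) hp.le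
  have h4 : 0 < θ * θ ^ t := mul_pos hc.pos hp
  unfold kp
  linarith

end Crest.Agent.R318
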